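import Claimed.Agent.R285.Base.RG

/-!
# ROW 285, package BP-PK-GEO ([B] Lemma 4.3 `rg:geometry`, Corollary 4.7), file 2: INDEX DISTANCES AND NESTED GRIDS.      Architect: helper241.   Prefix `geo_`.

* s1: `idist1`, `idist` are (pseudo)metrics on block indices; balls have at most `(2 d + 1)^2` elements.
* s2: ABSTRACT ARCS: a monotone map `f : Fin n → Fin n'` with fibres of size in `[lo, hi]`: comparison of the inner arc `b - a` and of the outer arc `n - (b - a)` with their images.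
* s3: a retained pair `P : Pair G D0 ℓ`, `L = 2^ℓ`: `up1` is monotone, surjective, `L < 2 |fibre|`, `|fibre| < 2 L`;
        `L * idist' (up a) (up b) < 2 * idist a b + L`      (so `2 * idist a b ≤ L` implies that the coarse blocks are equal or adjacent),
        `idist a b < 2 L (idist' (up a) (up b) + 1)`.
EVERYTHING IN THIS FILE IS PROVED (helper241).
FORMER LEAVES: L-GEO-G1 (metric), L-GEO-G2 (balls), L-GEO-G3 (arcs), L-GEO-G4 (`up1`: monotone, surjective, fibres), L-GEO-G5 (the two distance comparisons).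
-/

set_option autoImplicit false
set_option linter.unusedSectionVars false
set_option linter.unusedVariables false

namespace Claimed.Agent.R285.Geo

open Claimed.Agent.R285.RG

variable {G : Geom}

/-! ## 1. The index distance -/

theorem geo_idist1_per (g : Grid G) (h : G.bc = BC.per) (a b : Fin g.n) :
    g.idist1 a b = min ((a : ℤ) - b).natAbs (g.n - ((a : ℤ) - b).natAbs) := by
  unfold Grid.idist1; rw [h]

theorem geo_idist1_free (g : Grid G) (h : G.bc = BC.free) (a b : Fin g.n) :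
    g.idist1 a b = ((a : ℤ) - b).natAbs := by
  unfold Grid.idist1; rw [h]

theorem geo_bc_cases (G : Geom) : G.bc = BC.per ∨ G.bc = BC.free := by
  cases G.bc <;> simp

theorem geo_idist1_self (g : Grid G) (a : Fin g.n) : g.idist1 a a = 0 := by
  rcases geo_bc_cases G with h | h
  · rw [geo_idist1_per g h]; simp
  · rw [geo_idist1_free g h]; simp

theorem geo_idist1_comm (g : Grid G) (a b : Fin g.n) : g.idist1 a b = g.idist1 b a := by
  rcases geo_bc_cases G with h | h
  · rw [geo_idist1_per g h, geo_idist1_per g h]; omega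
  · rw [geo_idist1_free g h, geo_idist1_free g h]; omega

theorem geo_idist1_triangle (g : Grid G) (a b c : Fin g.n) : g.idist1 a c ≤ g.idist1 a b + g.idist1 b c := by
  have ha := a.2; have hb := b.2; have hc := c.2
  rcases geo_bc_cases G with h | h
  · rw [geo_idist1_per g h, geo_idist1_per g h, geo_idist1_per g h]; omega
  · rw [geo_idist1_free g h, geo_idist1_free g h, geo_idist1_free g h]; omega

theorem geo_idist1_le_abs (g : Grid G) (a b : Fin g.n) : g.idist1 a b ≤ ((a : ℤ) - b).natAbs := by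
  rcases geo_bc_cases G with h | h
  · rw [geo_idist1_per g h]; omega
  · rw [geo_idist1_free g h]

theorem geo_idist_self (g : Grid G) (a : g.I) : g.idist a a = 0 := by
  simp [Grid.idist, geo_idist1_self]

theorem geo_idist_comm (g : Grid G) (a b : g.I) : g.idist a b = g.idist b a := by
  simp [Grid.idist, geo_idist1_comm g a.1 b.1, geo_idist1_comm g a.2 b.2]

theorem geo_idist_triangle (g : Grid G) (a b c : g.I) : g.idist a c ≤ g.idist a b + g.idist b c := by
  have h1 := geo_idist1_triangle g a.1 b.1 c.1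
  have h2 := geo_idist1_triangle g a.2 b.2 c.2
  simp only [Grid.idist]; omega

/-- one-dimensional balls.  PLAN: the map `b ↦ ((b : ℤ) - a) mod n` resp. `(b : ℤ) - a` is injective on the ball, with values in `[-d, d]` (free) resp. in `[0, d] ∪ [n - d, n)` (periodic).
Simplest: inject the ball into `Finset.Icc (-d : ℤ) d` by `b ↦ if |b - a| ≤ d then b - a else if a < b then b - a - n else b - a + n` and check injectivity by `omega`. -/
theorem geo_ball1_card (g : Grid G) (a : Fin g.n) (d : ℕ) :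
    (Finset.univ.filter fun b : Fin g.n => g.idist1 a b ≤ d).card ≤ 2 * d + 1 := by
  have ha := a.2
  have hcard : (Finset.Icc (-(d : ℤ)) d).card = 2 * d + 1 := by rw [Int.card_Icc]; omega
  rw [← hcard]
  apply Finset.card_le_card_of_injOn (fun b : Fin g.n => if ((a : ℤ) - b).natAbs ≤ d then (b : ℤ) - a
    else if (a : ℕ) < b then (b : ℤ) - a - g.n else (b : ℤ) - a + g.n)
  · intro b hb
    have hb' : g.idist1 a b ≤ d := (Finset.mem_filter.1 hb).2
    have hbn := b.2
    simp only [Finset.coe_Icc, Set.mem_Icc]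
    rcases geo_bc_cases G with h | h
    · rw [geo_idist1_per g h] at hb'
      split_ifs <;> omega
    · rw [geo_idist1_free g h] at hb'
      rw [if_pos hb']; omega
  · intro b _ b' _ hbb
    have hbn := b.2
    have hbn' := b'.2
    simp only at hbb
    apply Fin.ext
    split_ifs at hbb <;> omega

/-- the ball is the product of the two one-dimensional balls (`Finset.card_product`). -/
theorem geo_ball_card (g : Grid G) (a : g.I) (d : ℕ) :
    (Finset.univ.filter fun b : g.I => g.idist a b ≤ d).card ≤ (2 * d + 1) ^ 2 := by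
  have e : (Finset.univ.filter fun b : g.I => g.idist a b ≤ d) =
      (Finset.univ.filter fun b : Fin g.n => g.idist1 a.1 b ≤ d) ×ˢ
        (Finset.univ.filter fun b : Fin g.n => g.idist1 a.2 b ≤ d) := by
    ext ⟨b1, b2⟩
    simp [Grid.idist]
  rw [e, Finset.card_product, sq]
  exact Nat.mul_le_mul (geo_ball1_card g a.1 d) (geo_ball1_card g a.2 d)

/-! ## 2. Arcs of a monotone map -/

section arcs

variable {n n' : ℕ} (f : Fin n → Fin n') (hf : Monotone f)

theorem geo_pre_card (T : Finset (Fin n')) :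
    (Finset.univ.filter fun x => f x ∈ T).card = ∑ c ∈ T, (Finset.univ.filter fun x => f x = c).card := by
  exact (Finset.sum_card_fiberwise_eq_card_filter Finset.univ T f).symm

theorem geo_pre_lo {lo : ℕ} (hlo : ∀ c, lo ≤ (Finset.univ.filter fun x => f x = c).card) (T : Finset (Fin n')) :
    T.card * lo ≤ (Finset.univ.filter fun x => f x ∈ T).card := by
  rw [geo_pre_card]
  have := Finset.card_nsmul_le_sum T (fun c => (Finset.univ.filter fun x => f x = c).card) lo (fun c _ => hlo c)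
  simpa using this

theorem geo_pre_hi {hi : ℕ} (hhi : ∀ c, (Finset.univ.filter fun x => f x = c).card ≤ hi) (T : Finset (Fin n')) :
    (Finset.univ.filter fun x => f x ∈ T).card ≤ T.card * hi := by
  rw [geo_pre_card]
  have := Finset.sum_le_card_nsmul T (fun c => (Finset.univ.filter fun x => f x = c).card) hi (fun c _ => hhi c)
  simpa using this

/-- fibres over `(f a, f b)` lie in `(a, b)`.  `Finset.card_biUnion` (disjoint fibres) over `Finset.Ioo (f a) (f b)`, `Fin.card_Ioo`. -/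
theorem geo_arc_in_lo (hf : Monotone f) {lo : ℕ} (hlo : ∀ c, lo ≤ (Finset.univ.filter fun x => f x = c).card)
    {a b : Fin n} (hab : a ≤ b) : ((f b : ℕ) - f a - 1) * lo ≤ (b : ℕ) - a - 1 := by
  have h1 := geo_pre_lo f hlo (Finset.Ioo (f a) (f b))
  have h2 : (Finset.univ.filter fun x => f x ∈ Finset.Ioo (f a) (f b)) ⊆ Finset.Ioo a b := by
    intro x hx
    have hx' := Finset.mem_Ioo.1 (Finset.mem_filter.1 hx).2
    refine Finset.mem_Ioo.2 ⟨?_, ?_⟩
    · by_contra hc
      exact absurd (hf (not_lt.1 hc)) (not_le.2 hx'.1)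
    · by_contra hc
      exact absurd (hf (not_lt.1 hc)) (not_le.2 hx'.2)
  have h3 := Finset.card_le_card h2
  rw [Fin.card_Ioo] at h1 h3
  exact le_trans h1 h3

/-- `[a, b]` is covered by the fibres over `[f a, f b]`.  `Finset.card_le_mul_card_image` or `Finset.card_biUnion_le`. -/
theorem geo_arc_in_hi (hf : Monotone f) {hi : ℕ} (hhi : ∀ c, (Finset.univ.filter fun x => f x = c).card ≤ hi)
    {a b : Fin n} (hab : a ≤ b) : (b : ℕ) - a + 1 ≤ ((f b : ℕ) - f a + 1) * hi := by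
  have h1 := geo_pre_hi f hhi (Finset.Icc (f a) (f b))
  have h2 : Finset.Icc a b ⊆ (Finset.univ.filter fun x => f x ∈ Finset.Icc (f a) (f b)) := by
    intro x hx
    have hx' := Finset.mem_Icc.1 hx
    exact Finset.mem_filter.2 ⟨Finset.mem_univ _, Finset.mem_Icc.2 ⟨hf hx'.1, hf hx'.2⟩⟩
  have h3 := Finset.card_le_card h2
  rw [Fin.card_Icc] at h1 h3
  have hab' : (a : ℕ) ≤ b := hab
  have hfab : (f a : ℕ) ≤ f b := hf hab
  have e1 : (b : ℕ) - a + 1 = b + 1 - a := by omega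
  have e2 : (f b : ℕ) - f a + 1 = f b + 1 - f a := by omega
  rw [e1, e2]
  exact le_trans h3 h1

/-- fibres over `[0, f a) ∪ (f b, n')` lie in `[0, a) ∪ (b, n)`. -/
theorem geo_arc_out_lo (hf : Monotone f) {lo : ℕ} (hlo : ∀ c, lo ≤ (Finset.univ.filter fun x => f x = c).card)
    {a b : Fin n} (hab : a ≤ b) : (n' - ((f b : ℕ) - f a) - 1) * lo ≤ n - ((b : ℕ) - a) - 1 := by
  have h1 := geo_pre_lo f hlo (Finset.Iio (f a) ∪ Finset.Ioi (f b))
  have h2 : (Finset.univ.filter fun x => f x ∈ Finset.Iio (f a) ∪ Finset.Ioi (f b)) ⊆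
      Finset.Iio a ∪ Finset.Ioi b := by
    intro x hx
    rcases Finset.mem_union.1 (Finset.mem_filter.1 hx).2 with hx' | hx'
    · refine Finset.mem_union_left _ (Finset.mem_Iio.2 ?_)
      by_contra hc
      exact absurd (hf (not_lt.1 hc)) (not_le.2 (Finset.mem_Iio.1 hx'))
    · refine Finset.mem_union_right _ (Finset.mem_Ioi.2 ?_)
      by_contra hc
      exact absurd (hf (not_lt.1 hc)) (not_le.2 (Finset.mem_Ioi.1 hx'))
  have h3 := le_trans (Finset.card_le_card h2) (Finset.card_union_le _ _)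
  have hd : Disjoint (Finset.Iio (f a)) (Finset.Ioi (f b)) := by
    rw [Finset.disjoint_left]
    intro x hx hx'
    exact absurd (lt_trans (Finset.mem_Ioi.1 hx') (Finset.mem_Iio.1 hx)) (not_lt.2 (hf hab))
  rw [Finset.card_union_of_disjoint hd, Fin.card_Iio, Fin.card_Ioi] at h1
  rw [Fin.card_Iio, Fin.card_Ioi] at h3
  have hab' : (a : ℕ) ≤ b := hab
  have hfab : (f a : ℕ) ≤ f b := hf hab
  have hb := b.2
  have hfb := (f b).2
  have e1 : n' - ((f b : ℕ) - f a) - 1 = f a + (n' - 1 - f b) := by omega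
  have e2 : n - ((b : ℕ) - a) - 1 = a + (n - 1 - b) := by omega
  rw [e1, e2]
  exact le_trans h1 h3

/-- `[0, a] ∪ [b, n)` is covered by the fibres over `[0, f a] ∪ [f b, n')`. -/
theorem geo_arc_out_hi (hf : Monotone f) {hi : ℕ} (hhi : ∀ c, (Finset.univ.filter fun x => f x = c).card ≤ hi)
    {a b : Fin n} (hab : a < b) : n - ((b : ℕ) - a) + 1 ≤ (n' - ((f b : ℕ) - f a) + 1) * hi := by
  have h1 := geo_pre_hi f hhi (Finset.Iic (f a) ∪ Finset.Ici (f b))
  have h2 : Finset.Iic a ∪ Finset.Ici b ⊆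
      (Finset.univ.filter fun x => f x ∈ Finset.Iic (f a) ∪ Finset.Ici (f b)) := by
    intro x hx
    refine Finset.mem_filter.2 ⟨Finset.mem_univ _, ?_⟩
    rcases Finset.mem_union.1 hx with hx' | hx'
    · exact Finset.mem_union_left _ (Finset.mem_Iic.2 (hf (Finset.mem_Iic.1 hx')))
    · exact Finset.mem_union_right _ (Finset.mem_Ici.2 (hf (Finset.mem_Ici.1 hx')))
  have h3 := Finset.card_le_card h2
  have hd : Disjoint (Finset.Iic a) (Finset.Ici b) := by
    rw [Finset.disjoint_left]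
    intro x hx hx'
    exact absurd (lt_of_lt_of_le hab (Finset.mem_Ici.1 hx')) (not_lt.2 (Finset.mem_Iic.1 hx))
  rw [Finset.card_union_of_disjoint hd, Fin.card_Iic, Fin.card_Ici] at h3
  have h4 : (Finset.Iic (f a) ∪ Finset.Ici (f b)).card ≤ (f a + 1) + (n' - f b) := by
    refine le_trans (Finset.card_union_le _ _) ?_
    rw [Fin.card_Iic, Fin.card_Ici]
  have hab' : (a : ℕ) < b := hab
  have hfab : (f a : ℕ) ≤ f b := hf hab.le
  have hb := b.2
  have hfb := (f b).2
  have e1 : n' - ((f b : ℕ) - f a) + 1 = (f a + 1) + (n' - f b) := by omega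
  have e2 : n - ((b : ℕ) - a) + 1 = (a + 1) + (n - b) := by omega
  rw [e1, e2]
  exact le_trans h3 (le_trans h1 (Nat.mul_le_mul_right _ h4))

end arcs

/-! ## 3. Retained pairs -/

section pair

variable {D0 ℓ : ℕ} (P : Pair G D0 ℓ)

/-- `a ≤ b`; sites `i, j` with `blk1 i = a`, `blk1 j = b` (`ok.surj`).  If `a = b` clear; otherwise `i < j` (else `b ≤ a` by `ok.mono`), so `up1 a = g'.blk1 i ≤ g'.blk1 j = up1 b` (`N.comm`, `ok'.mono`). -/
theorem geo_up1_mono : Monotone P.N.up1 := by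
  intro a b hab
  obtain ⟨i, rfl⟩ := P.ok.surj a
  obtain ⟨j, rfl⟩ := P.ok.surj b
  rcases le_total i j with h | h
  · rw [← P.N.comm, ← P.N.comm]
    exact P.ok'.mono h
  · have : P.g.blk1 i = P.g.blk1 j := le_antisymm hab (P.ok.mono h)
    rw [this]

/-- `ok'.surj` and `N.comm`. -/
theorem geo_up1_surj : Function.Surjective P.N.up1 := by
  intro c
  obtain ⟨i, rfl⟩ := P.ok'.surj c
  exact ⟨P.g.blk1 i, (P.N.comm i).symm⟩

/-- the sites of a coarse block are the disjoint union of the sites of its fine blocks:  `|{i : g'.blk1 i = c}| = ∑_{a : up1 a = c} |{i : g.blk1 i = a}|`  (`Finset.card_eq_sum_card_fiberwise` with `g.blk1`, `N.comm`). -/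
theorem geo_sites_sum (c : Fin P.g'.n) :
    (Finset.univ.filter fun i => P.g'.blk1 i = c).card =
      ∑ a ∈ Finset.univ.filter (fun a => P.N.up1 a = c), (Finset.univ.filter fun i => P.g.blk1 i = a).card := by
  rw [Finset.sum_card_fiberwise_eq_card_filter]
  congr 1
  ext i
  simp [P.N.comm]

/-- `L m ≤ |coarse block| = ∑ |fine blocks| < k * 2 m`  (`k ≥ 1` because the coarse block is not empty; `Finset.sum_lt_sum_of_nonempty` or `Finset.sum_le_card_nsmul` with `2 m - 1`). -/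
theorem geo_fib1_lo (c : Fin P.g'.n) : 2 ^ ℓ < 2 * (Finset.univ.filter fun a => P.N.up1 a = c).card := by
  have h1 := (P.ok'.size c).1
  rw [geo_sites_sum, P.hS] at h1
  have hm := P.ok.pos
  have h2 : ∑ a ∈ Finset.univ.filter (fun a => P.N.up1 a = c), (Finset.univ.filter fun i => P.g.blk1 i = a).card
      ≤ (Finset.univ.filter fun a => P.N.up1 a = c).card * (2 * P.g.m - 1) := by
    have := Finset.sum_le_card_nsmul (Finset.univ.filter fun a => P.N.up1 a = c)
      (fun a => (Finset.univ.filter fun i => P.g.blk1 i = a).card) (2 * P.g.m - 1)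
      (fun a _ => by have := (P.ok.size a).2; omega)
    simpa using this
  generalize (Finset.univ.filter fun a => P.N.up1 a = c).card = k at h2 ⊢
  have h3 : 2 ^ ℓ * P.g.m ≤ k * (2 * P.g.m - 1) := le_trans h1 h2
  have hL : 1 ≤ 2 ^ ℓ := Nat.one_le_two_pow
  by_contra hc
  have hc' : 2 * k ≤ 2 ^ ℓ := not_lt.1 hc
  have h4 : 2 * k * P.g.m ≤ 2 ^ ℓ * P.g.m := Nat.mul_le_mul_right _ hc'
  obtain ⟨m', hm'⟩ : ∃ m', P.g.m = m' + 1 := ⟨P.g.m - 1, by omega⟩
  rw [hm'] at h3 h4
  have e : 2 * (m' + 1) - 1 = 2 * m' + 1 := by omega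
  rw [e] at h3
  rcases Nat.eq_zero_or_pos k with rfl | hk
  · nlinarith
  · nlinarith

/-- `k m ≤ ∑ |fine blocks| = |coarse block| < 2 L m`. -/
theorem geo_fib1_hi (c : Fin P.g'.n) : (Finset.univ.filter fun a => P.N.up1 a = c).card < 2 * 2 ^ ℓ := by
  have h1 := (P.ok'.size c).2
  rw [geo_sites_sum, P.hS] at h1
  have hm := P.ok.pos
  have h2 : (Finset.univ.filter fun a => P.N.up1 a = c).card * P.g.m ≤
      ∑ a ∈ Finset.univ.filter (fun a => P.N.up1 a = c), (Finset.univ.filter fun i => P.g.blk1 i = a).card := by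
    have := Finset.card_nsmul_le_sum (Finset.univ.filter fun a => P.N.up1 a = c)
      (fun a => (Finset.univ.filter fun i => P.g.blk1 i = a).card) P.g.m (fun a _ => (P.ok.size a).1)
    simpa using this
  generalize (Finset.univ.filter fun a => P.N.up1 a = c).card = k at h2 ⊢
  have h3 : k * P.g.m < 2 * 2 ^ ℓ * P.g.m := by
    calc k * P.g.m ≤ _ := h2
      _ < 2 * (2 ^ ℓ * P.g.m) := h1
      _ = 2 * 2 ^ ℓ * P.g.m := by ring
  exact lt_of_mul_lt_mul_right h3 (Nat.zero_le _)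

/-- **coarse distance from fine distance.**  PLAN: symmetric in `a, b` (`geo_idist1_comm`), so `a ≤ b`; `lo := 2^ℓ / 2 + 1 ≤ |fibre|` (`geo_fib1_lo`), `2 lo ≥ L + 1`.  With `d₁ = b - a`, `d₁' = up1 b - up1 a`:
`(d₁' - 1) lo ≤ d₁ - 1` (`geo_arc_in_lo`) gives `L d₁' < 2 d₁ + L`;  periodic: also `(n' - d₁' - 1) lo ≤ n - d₁ - 1` (`geo_arc_out_lo`) gives `L (n' - d₁') < 2 (n - d₁) + L`; the minimum of both. `nlinarith`/`Nat.mul_le_mul`. -/
theorem geo_up1_dist (a b : Fin P.g.n) :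
    2 ^ ℓ * P.g'.idist1 (P.N.up1 a) (P.N.up1 b) < 2 * P.g.idist1 a b + 2 ^ ℓ := by
  wlog hab : a ≤ b generalizing a b
  · have := this b a (le_of_not_ge hab)
    rwa [geo_idist1_comm P.g' (P.N.up1 b), geo_idist1_comm P.g b] at this
  have hf := geo_up1_mono P
  have hL : 1 ≤ 2 ^ ℓ := Nat.one_le_two_pow
  have hlo : ∀ c, 2 ^ ℓ / 2 + 1 ≤ (Finset.univ.filter fun x => P.N.up1 x = c).card := fun c => by
    have := geo_fib1_lo P c; omega
  have h1 := geo_arc_in_lo P.N.up1 hf hlo hab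
  have h2 := geo_arc_out_lo P.N.up1 hf hlo hab
  have hab' : (a : ℕ) ≤ b := hab
  have hfab : (P.N.up1 a : ℕ) ≤ P.N.up1 b := hf hab
  have hb := b.2
  have hfb := (P.N.up1 b).2
  have ar : ∀ d d' : ℕ, (d = 0 → d' = 0) → (d' - 1) * (2 ^ ℓ / 2 + 1) ≤ d - 1 → 2 ^ ℓ * d' < 2 * d + 2 ^ ℓ := by
    intro d d' h0 h
    rcases Nat.eq_zero_or_pos d' with rfl | hd'
    · omega
    · obtain ⟨e, rfl⟩ : ∃ e, d' = e + 1 := ⟨d' - 1, by omega⟩
      have hd : 1 ≤ d := by
        by_contra hc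
        have := h0 (by omega)
        omega
      rw [Nat.add_sub_cancel] at h
      have h3 : 2 ^ ℓ ≤ 2 * (2 ^ ℓ / 2 + 1) := by omega
      have h4 : 2 ^ ℓ * e ≤ 2 * (2 ^ ℓ / 2 + 1) * e := Nat.mul_le_mul_right _ h3
      have h5 : 2 * (2 ^ ℓ / 2 + 1) * e = 2 * (e * (2 ^ ℓ / 2 + 1)) := by ring
      have h6 : 2 ^ ℓ * (e + 1) = 2 ^ ℓ * e + 2 ^ ℓ := by ring
      omega
  have A := ar ((b : ℕ) - a) ((P.N.up1 b : ℕ) - P.N.up1 a) (fun h0 => by
    have : a = b := Fin.ext (by omega)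
    rw [this]; omega) h1
  have B := ar (P.g.n - ((b : ℕ) - a)) (P.g'.n - ((P.N.up1 b : ℕ) - P.N.up1 a)) (fun h0 => by omega) h2
  have e1 : ((a : ℤ) - b).natAbs = (b : ℕ) - a := by omega
  have e2 : ((P.N.up1 a : ℤ) - P.N.up1 b).natAbs = (P.N.up1 b : ℕ) - P.N.up1 a := by omega
  rcases geo_bc_cases G with h | h
  · rw [geo_idist1_per _ h, geo_idist1_per _ h, e1, e2]
    have m1 : 2 ^ ℓ * min ((P.N.up1 b : ℕ) - P.N.up1 a) (P.g'.n - ((P.N.up1 b : ℕ) - P.N.up1 a)) ≤
        2 ^ ℓ * ((P.N.up1 b : ℕ) - P.N.up1 a) := Nat.mul_le_mul_left _ (min_le_left _ _)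
    have m2 : 2 ^ ℓ * min ((P.N.up1 b : ℕ) - P.N.up1 a) (P.g'.n - ((P.N.up1 b : ℕ) - P.N.up1 a)) ≤
        2 ^ ℓ * (P.g'.n - ((P.N.up1 b : ℕ) - P.N.up1 a)) := Nat.mul_le_mul_left _ (min_le_right _ _)
    rcases le_total ((b : ℕ) - a) (P.g.n - ((b : ℕ) - a)) with hm | hm
    · rw [min_eq_left hm]; exact lt_of_le_of_lt m1 A
    · rw [min_eq_right hm]; exact lt_of_le_of_lt m2 B
  · rw [geo_idist1_free _ h, geo_idist1_free _ h, e1, e2]
    exact A

/-- **fine distance from coarse distance.**  `a = b` trivial; `a < b`: `d₁ + 1 ≤ (d₁' + 1) hi`, `n - d₁ + 1 ≤ (n' - d₁' + 1) hi` with `hi := 2 L - 1` (`geo_arc_in_hi`, `geo_arc_out_hi`, `geo_fib1_hi`). -/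
theorem geo_up1_dist' (a b : Fin P.g.n) :
    P.g.idist1 a b < 2 * 2 ^ ℓ * (P.g'.idist1 (P.N.up1 a) (P.N.up1 b) + 1) := by
  wlog hab : a ≤ b generalizing a b
  · have := this b a (le_of_not_ge hab)
    rwa [geo_idist1_comm P.g' (P.N.up1 b), geo_idist1_comm P.g b] at this
  have hL : 1 ≤ 2 ^ ℓ := Nat.one_le_two_pow
  rcases eq_or_lt_of_le hab with rfl | hlt
  · rw [geo_idist1_self]; positivity
  have hf := geo_up1_mono P
  have hhi : ∀ c, (Finset.univ.filter fun x => P.N.up1 x = c).card ≤ 2 * 2 ^ ℓ := fun c => (geo_fib1_hi P c).le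
  have h1 := geo_arc_in_hi P.N.up1 hf hhi hab
  have h2 := geo_arc_out_hi P.N.up1 hf hhi hlt
  have hab' : (a : ℕ) ≤ b := hab
  have hfab : (P.N.up1 a : ℕ) ≤ P.N.up1 b := hf hab
  have e1 : ((a : ℤ) - b).natAbs = (b : ℕ) - a := by omega
  have e2 : ((P.N.up1 a : ℤ) - P.N.up1 b).natAbs = (P.N.up1 b : ℕ) - P.N.up1 a := by omega
  rw [mul_comm] at h1 h2
  rcases geo_bc_cases G with h | h
  · rw [geo_idist1_per _ h, geo_idist1_per _ h, e1, e2]
    rcases le_total ((P.N.up1 b : ℕ) - P.N.up1 a) (P.g'.n - ((P.N.up1 b : ℕ) - P.N.up1 a)) with hm | hm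
    · rw [min_eq_left hm]
      exact lt_of_le_of_lt (min_le_left _ _) (lt_of_lt_of_le (Nat.lt_succ_self _) h1)
    · rw [min_eq_right hm]
      exact lt_of_le_of_lt (min_le_right _ _) (lt_of_lt_of_le (Nat.lt_succ_self _) h2)
  · rw [geo_idist1_free _ h, geo_idist1_free _ h, e1, e2]
    exact lt_of_lt_of_le (Nat.lt_succ_self _) h1

theorem geo_up_dist (a b : P.g.I) : 2 ^ ℓ * P.g'.idist (P.N.up a) (P.N.up b) < 2 * P.g.idist a b + 2 ^ ℓ := by
  have h1 := geo_up1_dist P a.1 b.1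
  have h2 := geo_up1_dist P a.2 b.2
  simp only [Grid.idist, Nest.up]
  rcases le_total (P.g'.idist1 (P.N.up1 a.1) (P.N.up1 b.1)) (P.g'.idist1 (P.N.up1 a.2) (P.N.up1 b.2)) with h | h
  · rw [max_eq_right h]; have := le_max_right (P.g.idist1 a.1 b.1) (P.g.idist1 a.2 b.2); omega
  · rw [max_eq_left h]; have := le_max_left (P.g.idist1 a.1 b.1) (P.g.idist1 a.2 b.2); omega

theorem geo_up_dist' (a b : P.g.I) : P.g.idist a b < 2 * 2 ^ ℓ * (P.g'.idist (P.N.up a) (P.N.up b) + 1) := by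
  have h1 := geo_up1_dist' P a.1 b.1
  have h2 := geo_up1_dist' P a.2 b.2
  have e1 : 2 * 2 ^ ℓ * (P.g'.idist1 (P.N.up1 a.1) (P.N.up1 b.1) + 1) ≤ 2 * 2 ^ ℓ * (P.g'.idist (P.N.up a) (P.N.up b) + 1) :=
    Nat.mul_le_mul_left _ (Nat.succ_le_succ (le_max_left _ _))
  have e2 : 2 * 2 ^ ℓ * (P.g'.idist1 (P.N.up1 a.2) (P.N.up1 b.2) + 1) ≤ 2 * 2 ^ ℓ * (P.g'.idist (P.N.up a) (P.N.up b) + 1) :=
    Nat.mul_le_mul_left _ (Nat.succ_le_succ (le_max_right _ _))
  exact max_lt (lt_of_lt_of_le h1 e1) (lt_of_lt_of_le h2 e2)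

/-- close fine blocks have equal or adjacent coarse blocks. -/
theorem geo_up_adj {a b : P.g.I} (h : 2 * P.g.idist a b ≤ 2 ^ ℓ) : P.g'.idist (P.N.up a) (P.N.up b) ≤ 1 := by
  have h1 := geo_up_dist P a b
  by_contra hc
  have h2 : 2 ≤ P.g'.idist (P.N.up a) (P.N.up b) := by omega
  have h3 : 2 ^ ℓ * 2 ≤ 2 ^ ℓ * P.g'.idist (P.N.up a) (P.N.up b) := Nat.mul_le_mul_left _ h2
  omega

/-- the fibre of `up` is the product of the fibres of `up1`. -/
theorem geo_fib_card (c : P.g'.I) : (Finset.univ.filter fun a : P.g.I => P.N.up a = c).card ≤ (2 * 2 ^ ℓ) ^ 2 := by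
  have e : (Finset.univ.filter fun a : P.g.I => P.N.up a = c) =
      (Finset.univ.filter fun a => P.N.up1 a = c.1) ×ˢ (Finset.univ.filter fun a => P.N.up1 a = c.2) := by
    ext ⟨a1, a2⟩
    simp [Nest.up, Prod.ext_iff]
  rw [e, Finset.card_product, sq]
  exact Nat.mul_le_mul (geo_fib1_hi P c.1).le (geo_fib1_hi P c.2).le

end pair

end Claimed.Agent.R285.Geo
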