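import Mathlib

/-!
# ROW 285, package BP-PK-GEO ([B] Lemma 4.3 `rg:geometry`, Corollary 4.7), file 1: ABSTRACT WALKS.      Architect: helper241.   Prefix `geo_`.

PAPER-FREE, GRID-FREE.  `I` is any type with decidable equality, `E S Lg : I → I → Prop` are step relations.
* `CN E V`      : `V` is non-empty and connected by `E`-steps inside `V`  (`Grid.Conn R X = CN (fun u v => g.idist u v ≤ R) X` by `Iff.rfl`).
* `cmp S V`     : the `S`-components of `V`                                (`Grid.comps R V = cmp .. V`).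
* `Tour E V a l`: `l` is a closed walk from `a` to `a` with `E`-steps which visits exactly `V`, of length `2 |V| - 1` (depth-first traversal of a spanning tree).
* `lcost S l`   : the number of steps of `l` which are not `S`-steps (the LONG steps).
* `wk bS bL N k a` : the finite set of all walks from `a` with `N` steps, every step in the ball `bS` (short) or `bL` (long), at most `k` steps of the second kind.

RESULTS
 (W1) `geo_tour_exists`   : a connected set has a tour from every root.        Proof: GROW the visited set `W`: an edge `u ∈ W`, `v ∈ V \ W` (`geo_exists_edge`), replace one occurrence of `u` by `u, v, u` (`Tour.insert`).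
 (W2) `geo_ftour_exists`  : `V` connected by LONG steps with `j` short components has a tour with at most `2 (j - 1)` long steps.    Proof: grow a set `𝒲` of components: long edge `u ∈ ⋃ 𝒲`, `v ∉ ⋃ 𝒲`, insert the short tour of the component of `v`.
 (W3) `geo_wk_card`, `geo_mem_wk` : counting.
 (W4) `geo_count_animals`, `geo_count_families` : the two counts, `V ↦ tour` is injective because `l.toFinset = V`.
 (W5) `geo_cover_chunks`  : a walk of length `n` with steps `≤ R` (for a distance `d`) is covered by `n / k + 1` balls of radius `(k - 1) R`.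
EVERYTHING IN THIS FILE IS PROVED (helper241, 15:40Z).   (`geo_wk_card`, `geo_count_families` need `1 ≤ Dl`.)
FORMER LEAVES: L-GEO-W0 (`geo_exists_edge`, `CN.image`, `CN.of_image`, `CN.mono`), L-GEO-W1 (`lcost` lemmas, `Tour.single`, `Tour.insert`), L-GEO-W2 (`geo_tour_exists`), L-GEO-W3 (components `geo_cmp_*`),
        L-GEO-W4 (`geo_ftour_exists`), L-GEO-W5 (`geo_wk_card`, `geo_mem_wk`), L-GEO-W6 (`geo_count_animals`, `geo_count_families`), L-GEO-W7 (`geo_chain_dist`, `geo_cover_chunks`, `geo_tour_dist`).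
-/

set_option autoImplicit false
set_option linter.unusedSectionVars false
set_option linter.unusedVariables false

namespace Claimed.Agent.R285.Geo

open Classical

variable {I : Type} [DecidableEq I]

/-! ## 0. Connected sets -/

/-- `V` is non-empty and connected by `E`-steps inside `V`. -/
def CN (E : I → I → Prop) (V : Finset I) : Prop :=
  V.Nonempty ∧ ∀ a ∈ V, ∀ b ∈ V, Relation.ReflTransGen (fun u v => u ∈ V ∧ v ∈ V ∧ E u v) a b

/-- the `S`-components of `V`. -/
noncomputable def cmp (S : I → I → Prop) (V : Finset I) : Finset (Finset I) :=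
  V.powerset.filter fun X => CN S X ∧ ∀ a ∈ X, ∀ b ∈ V, S a b → b ∈ X

/-- **an edge leaving a proper subset.**  PLAN: `a ∈ W`, `b ∈ V \ W`; induction on the path from `a` to `b` (`Relation.ReflTransGen.head_induction_on` or: prove by induction on `ReflTransGen`
"`a ∈ W → x ∉ W → ∃ edge`": at the last step `y → x`: if `y ∈ W` this is the edge, else the induction hypothesis). -/
theorem geo_exists_edge {E : I → I → Prop} {V W : Finset I} (h : CN E V) (hW : W ⊆ V) (hne : W.Nonempty)
    (hlt : W ≠ V) : ∃ u ∈ W, ∃ v ∈ V, v ∉ W ∧ E u v := by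
  obtain ⟨a, ha⟩ := hne
  obtain ⟨b, hbV, hbW⟩ : ∃ b ∈ V, b ∉ W := by
    by_contra hc
    exact hlt (Finset.Subset.antisymm hW fun b hb => by
      by_contra hbW
      exact hc ⟨b, hb, hbW⟩)
  have key : ∀ x, Relation.ReflTransGen (fun u v => u ∈ V ∧ v ∈ V ∧ E u v) a x → x ∉ W →
      ∃ u ∈ W, ∃ v ∈ V, v ∉ W ∧ E u v := by
    intro x hx
    induction hx with
    | refl => intro h; exact absurd ha h
    | @tail y z _ hyz ih =>
      intro hz
      by_cases hy : y ∈ W
      · exact ⟨y, hy, z, hyz.2.1, hz, hyz.2.2⟩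
      · exact ih hy
  exact key b (h.2 a (hW ha) b hbV) hbW

theorem CN.mono {E E' : I → I → Prop} {V : Finset I} (h : CN E V) (hE : ∀ u v, E u v → E' u v) : CN E' V :=
  ⟨h.1, fun a ha b hb => Relation.ReflTransGen.mono (r := fun u v => u ∈ V ∧ v ∈ V ∧ E u v)
    (fun u v huv => ⟨huv.1, huv.2.1, hE u v huv.2.2⟩) a b (h.2 a ha b hb)⟩

theorem CN.single (E : I → I → Prop) (a : I) : CN E {a} := by
  refine ⟨Finset.singleton_nonempty a, fun x hx y hy => ?_⟩
  rw [Finset.mem_singleton] at hx hy
  rw [hx, hy]

/-- images (`Relation.ReflTransGen.lift`). -/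
theorem CN.image {I' : Type} [DecidableEq I'] {E : I → I → Prop} {E' : I' → I' → Prop} {V : Finset I} (h : CN E V)
    (f : I → I') (hf : ∀ u v, E u v → E' (f u) (f v)) : CN E' (V.image f) := by
  refine ⟨h.1.image f, fun a ha b hb => ?_⟩
  obtain ⟨x, hx, rfl⟩ := Finset.mem_image.1 ha
  obtain ⟨y, hy, rfl⟩ := Finset.mem_image.1 hb
  exact Relation.ReflTransGen.lift (r := fun u v => u ∈ V ∧ v ∈ V ∧ E u v) f (fun u v huv =>
    ⟨Finset.mem_image_of_mem f huv.1, Finset.mem_image_of_mem f huv.2.1, hf u v huv.2.2⟩) x y (h.2 x hx y hy)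

/-- pull-back: if the image is connected by a REFLEXIVE relation then `V` is connected by the pulled back relation.
PLAN: for `c, c'` in the image with a path, and ALL preimages `x` of `c`, `x'` of `c'` in `V`: path from `x` to `x'` (induction on the path; at each step choose a preimage of the intermediate point; zero steps: `f x = f x'`, one step by reflexivity). -/
theorem CN.of_image {I' : Type} [DecidableEq I'] {E' : I' → I' → Prop} {V : Finset I} (f : I → I')
    (hr : ∀ c, E' c c) (h : CN E' (V.image f)) : CN (fun u v => E' (f u) (f v)) V := by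
  refine ⟨Finset.image_nonempty.1 h.1, fun a ha b hb => ?_⟩
  have key : ∀ c, Relation.ReflTransGen (fun u v => u ∈ V.image f ∧ v ∈ V.image f ∧ E' u v) (f a) c →
      ∀ x ∈ V, f x = c → Relation.ReflTransGen (fun u v => u ∈ V ∧ v ∈ V ∧ E' (f u) (f v)) a x := by
    intro c hc
    induction hc with
    | refl =>
      intro x hx hfx
      exact Relation.ReflTransGen.single ⟨ha, hx, by rw [hfx]; exact hr _⟩
    | @tail y z _ hyz ih =>
      intro x hx hfx
      obtain ⟨w, hw, hfw⟩ := Finset.mem_image.1 hyz.1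
      exact (ih w hw hfw).tail ⟨hw, hx, by rw [hfw, hfx]; exact hyz.2.2⟩
  exact key (f b) (h.2 _ (Finset.mem_image_of_mem f ha) _ (Finset.mem_image_of_mem f hb)) b hb rfl


/-! ## 1. Tours -/

/-- the number of steps which are not `S`-steps. -/
noncomputable def lcost (S : I → I → Prop) : List I → ℕ
  | a :: b :: t => (if S a b then 0 else 1) + lcost S (b :: t)
  | _ => 0

theorem geo_lcost_cons_cons (S : I → I → Prop) (a b : I) (t : List I) :
    lcost S (a :: b :: t) = (if S a b then 0 else 1) + lcost S (b :: t) := by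
  rw [lcost]

/-- induction on `A`. -/
theorem geo_lcost_append (S : I → I → Prop) (A : List I) (u : I) (B : List I) :
    lcost S (A ++ u :: B) = lcost S (A ++ [u]) + lcost S (u :: B) := by
  induction A with
  | nil => simp [lcost]
  | cons a A ih =>
    cases A with
    | nil => simp [lcost]
    | cons a' A' =>
      simp only [List.cons_append] at ih ⊢
      rw [geo_lcost_cons_cons, geo_lcost_cons_cons, ih]; omega

theorem geo_lcost_eq_zero {S : I → I → Prop} {l : List I} (h : l.IsChain S) : lcost S l = 0 := by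
  induction l with
  | nil => simp [lcost]
  | cons a t ih =>
    cases t with
    | nil => simp [lcost]
    | cons b t' =>
      rw [geo_lcost_cons_cons, if_pos (List.isChain_cons_cons.1 h).1, ih (List.isChain_cons_cons.1 h).2]

/-- `l` is a closed walk from `a` with `E`-steps which visits exactly `V`, of length `2 |V| - 1`. -/
structure Tour (E : I → I → Prop) (V : Finset I) (a : I) (l : List I) : Prop where
  head : l.head? = some a
  last : l.getLast? = some a
  cover : l.toFinset = V
  chain : l.IsChain E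
  len : l.length + 1 = 2 * V.card

theorem Tour.single (E : I → I → Prop) (a : I) : Tour E {a} a [a] :=
  ⟨rfl, rfl, by simp, List.isChain_singleton _, by simp⟩

theorem Tour.mono {E E' : I → I → Prop} {V : Finset I} {a : I} {l : List I} (h : Tour E V a l)
    (hE : ∀ u v, E u v → E' u v) : Tour E' V a l :=
  ⟨h.head, h.last, h.cover, h.chain.imp hE, h.len⟩

/-- **insertion of a tour.**  PLAN: `u ∈ l` (`h.cover`), `l = A ++ u :: B` (`List.append_of_mem`); `l'' := A ++ u :: (l' ++ u :: B)`.
head, last: unchanged (`List.head?_append`, `List.getLast?_append`; cases on `A`, `B`);  cover: `List.toFinset_append`, `List.toFinset_cons`;  chain: `List.isChain_append`, `List.isChain_cons` with `h'.head`, `h'.last`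
(`l' = v :: t` and `l' = t' ++ [v]`);  length: `Finset.card_union_of_disjoint`;  cost: `geo_lcost_append` three times, the two new steps cost `≤ 1` each. -/
theorem Tour.insert {E : I → I → Prop} (S : I → I → Prop) {U X : Finset I} {a u v : I} {l l' : List I}
    (h : Tour E U a l) (h' : Tour E X v l') (hd : Disjoint U X) (hu : u ∈ U) (huv : E u v) (hvu : E v u) :
    ∃ l'', Tour E (U ∪ X) a l'' ∧ lcost S l'' ≤ lcost S l + lcost S l' + 2 := by
  have hul : u ∈ l := by rw [← List.mem_toFinset, h.cover]; exact hu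
  obtain ⟨A, B, rfl⟩ := List.append_of_mem hul
  obtain ⟨t', ht'⟩ := List.getLast?_eq_some_iff.1 h'.last
  obtain ⟨t, ht⟩ : ∃ t, l' = v :: t := by
    have := h'.head
    cases l' with
    | nil => simp at this
    | cons x t => simp at this; exact ⟨t, by rw [this]⟩
  have hc := List.isChain_append.1 h.chain
  refine ⟨A ++ u :: (l' ++ u :: B), ⟨?_, ?_, ?_, ?_, ?_⟩, ?_⟩
  · have := h.head
    cases A <;> simpa using this
  · have := h.last
    rw [List.getLast?_append] at this ⊢
    rw [show u :: (l' ++ u :: B) = (u :: l') ++ u :: B by simp, List.getLast?_append]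
    cases hB : (u :: B).getLast? with
    | none => simp at hB
    | some z => rw [hB] at this; simpa using this
  · have h1 := h.cover
    have h2 := h'.cover
    rw [← h1, ← h2]
    ext x
    simp only [List.toFinset_append, List.toFinset_cons, Finset.mem_union, Finset.mem_insert, List.mem_toFinset]
    tauto
  · refine List.isChain_append.2 ⟨hc.1, ?_, ?_⟩
    · have h3 : (l' ++ u :: B).IsChain E := by
        refine List.isChain_append.2 ⟨h'.chain, hc.2.1, ?_⟩
        intro x hx y hy
        rw [h'.last] at hx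
        simp at hx hy
        subst hx; subst hy; exact hvu
      rw [ht] at h3 ⊢
      exact List.isChain_cons_cons.2 ⟨huv, h3⟩
    · intro x hx y hy
      exact hc.2.2 x hx y (by simpa using hy)
  · have h1 := h.len
    have h2 := h'.len
    rw [Finset.card_union_of_disjoint hd]
    simp only [List.length_append, List.length_cons] at h1 ⊢
    omega
  · have e1 : lcost S (A ++ u :: (l' ++ u :: B)) = lcost S (A ++ [u]) + lcost S (u :: (l' ++ u :: B)) :=
      geo_lcost_append S A u _
    have e2 : lcost S (u :: (l' ++ u :: B)) = (if S u v then 0 else 1) + lcost S (l' ++ u :: B) := by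
      rw [ht]; exact geo_lcost_cons_cons S u v _
    have e3 : lcost S (l' ++ u :: B) = lcost S (l' ++ [u]) + lcost S (u :: B) := geo_lcost_append S l' u B
    have e4 : lcost S (l' ++ [u]) = lcost S l' + (if S v u then 0 else 1) := by
      rw [ht', List.append_assoc]
      have := geo_lcost_append S t' v [u]
      simp only [List.singleton_append]
      rw [this, geo_lcost_cons_cons]
      simp [lcost]
    have e5 : lcost S (A ++ u :: B) = lcost S (A ++ [u]) + lcost S (u :: B) := geo_lcost_append S A u B
    rw [e1, e2, e3, e4, e5]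
    split_ifs <;> omega

/-- **(W1)**  PLAN: by induction on `n = (V \ W).card` prove `∀ W ⊆ V, a ∈ W, (∃ l, Tour E W a l) → ∃ l, Tour E V a l`: if `W ≠ V` take the edge of `geo_exists_edge`, `Tour.insert` with `Tour.single E v`
(`W ∪ {v}`, the complement loses one element).  Start with `W = {a}`. -/
theorem geo_tour_exists {E : I → I → Prop} (hs : ∀ u v, E u v → E v u) {V : Finset I} (h : CN E V) {a : I} (ha : a ∈ V) :
    ∃ l, Tour E V a l := by
  have key : ∀ n : ℕ, ∀ W : Finset I, W ⊆ V → a ∈ W → (V \ W).card = n → (∃ l, Tour E W a l) →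
      ∃ l, Tour E V a l := by
    intro n
    induction n with
    | zero =>
      intro W hW _ hn hl
      have : W = V := Finset.Subset.antisymm hW (Finset.sdiff_eq_empty_iff_subset.1 (Finset.card_eq_zero.1 hn))
      rwa [this] at hl
    | succ n ih =>
      rintro W hW haW hn ⟨l, hl⟩
      have hne : W ≠ V := by rintro rfl; simp at hn
      obtain ⟨u, hu, v, hv, hvW, huv⟩ := geo_exists_edge h hW ⟨a, haW⟩ hne
      obtain ⟨l'', hl'', -⟩ := Tour.insert E hl (Tour.single E v) (Finset.disjoint_singleton_right.2 hvW) hu huv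
        (hs u v huv)
      refine ih (W ∪ {v}) (Finset.union_subset hW (Finset.singleton_subset_iff.2 hv)) (Finset.mem_union_left _ haW) ?_
        ⟨l'', hl''⟩
      have e : V \ (W ∪ {v}) = (V \ W).erase v := by
        ext x
        simp only [Finset.mem_sdiff, Finset.mem_union, Finset.mem_singleton, Finset.mem_erase]
        tauto
      rw [e, Finset.card_erase_of_mem (Finset.mem_sdiff.2 ⟨hv, hvW⟩), hn]; rfl
  exact key _ {a} (Finset.singleton_subset_iff.2 ha) (Finset.mem_singleton_self a) rfl ⟨[a], Tour.single E a⟩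

/-! ## 2. Components -/

theorem geo_cmp_sub {S : I → I → Prop} {V X : Finset I} (h : X ∈ cmp S V) : X ⊆ V ∧ CN S X :=
  ⟨Finset.mem_powerset.1 (Finset.mem_filter.1 h).1, (Finset.mem_filter.1 h).2.1⟩

/-- the component of a vertex: `X := V.filter fun w => ReflTransGen (fun u v => u ∈ V ∧ v ∈ V ∧ S u v) v w`.  Paths from `v` stay in `X`; symmetry gives the paths back to `v`. -/
theorem geo_cmp_exists {S : I → I → Prop} (hs : ∀ u v, S u v → S v u) {V : Finset I} {v : I} (hv : v ∈ V) :
    ∃ X ∈ cmp S V, v ∈ X := by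
  set r : I → I → Prop := fun u w => u ∈ V ∧ w ∈ V ∧ S u w with hr
  set X : Finset I := V.filter fun w => Relation.ReflTransGen r v w with hX
  have hvX : v ∈ X := Finset.mem_filter.2 ⟨hv, Relation.ReflTransGen.refl⟩
  have hfwd : ∀ w, Relation.ReflTransGen r v w →
      Relation.ReflTransGen (fun u w => u ∈ X ∧ w ∈ X ∧ S u w) v w := by
    intro w hw
    induction hw with
    | refl => exact Relation.ReflTransGen.refl
    | @tail y z hy hyz ih =>
      exact ih.tail ⟨Finset.mem_filter.2 ⟨hyz.1, hy⟩, Finset.mem_filter.2 ⟨hyz.2.1, hy.tail hyz⟩, hyz.2.2⟩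
  have hsym : ∀ x y, Relation.ReflTransGen (fun u w => u ∈ X ∧ w ∈ X ∧ S u w) x y →
      Relation.ReflTransGen (fun u w => u ∈ X ∧ w ∈ X ∧ S u w) y x := by
    intro x y hxy
    induction hxy with
    | refl => exact Relation.ReflTransGen.refl
    | @tail y z _ hyz ih => exact Relation.ReflTransGen.head ⟨hyz.2.1, hyz.1, hs _ _ hyz.2.2⟩ ih
  refine ⟨X, Finset.mem_filter.2 ⟨Finset.mem_powerset.2 (Finset.filter_subset _ _), ⟨⟨v, hvX⟩, ?_⟩, ?_⟩, hvX⟩
  · intro a ha b hb
    exact (hsym _ _ (hfwd a (Finset.mem_filter.1 ha).2)).trans (hfwd b (Finset.mem_filter.1 hb).2)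
  · intro a ha b hb hab
    exact Finset.mem_filter.2 ⟨hb, (Finset.mem_filter.1 ha).2.tail ⟨(Finset.mem_filter.1 ha).1, hb, hab⟩⟩

/-- two components with a common vertex are equal: `x ∈ X ∩ X'`, `y ∈ X`: the path from `x` to `y` inside `X ⊆ V` stays in `X'` (closedness). -/
theorem geo_cmp_disjoint {S : I → I → Prop} {V X X' : Finset I} (h : X ∈ cmp S V) (h' : X' ∈ cmp S V)
    (hne : X ≠ X') : Disjoint X X' := by
  have key : ∀ Y Y' : Finset I, Y ∈ cmp S V → Y' ∈ cmp S V → ∀ x, x ∈ Y → x ∈ Y' → Y ⊆ Y' := by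
    intro Y Y' hY hY' x hx hx' y hy
    have hp := (geo_cmp_sub hY).2.2 x hx y hy
    induction hp with
    | refl => exact hx'
    | @tail u w _ huw ih =>
      exact (Finset.mem_filter.1 hY').2.2 u (ih huw.1) w ((geo_cmp_sub hY).1 huw.2.1) huw.2.2
  rw [Finset.disjoint_left]
  intro x hx hx'
  exact hne (Finset.Subset.antisymm (key X X' h h' x hx hx') (key X' X h' h x hx' hx))

/-! ## 3. Tours of families -/

/-- **(W2)**  `V` is connected by long steps and has `j` short components.
PLAN: `𝒞 := cmp S V`, `U 𝒲 := 𝒲.biUnion id`, `E := fun u v => S u v ∨ Lg u v`.  By induction on `(𝒞 \ 𝒲).card`: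
`∀ 𝒲 ⊆ 𝒞, (∃ l, Tour E (U 𝒲) a l ∧ lcost S l + 2 ≤ 2 * 𝒲.card) → ∃ l, Tour E V a l ∧ lcost S l + 2 ≤ 2 * 𝒞.card`.
If `𝒲 = 𝒞` then `U 𝒞 = V` (`geo_cmp_exists`).  Otherwise `U 𝒲 ≠ V` (a component outside `𝒲` is non-empty and disjoint from `U 𝒲`): `geo_exists_edge` for `CN Lg V` gives `u ∈ U 𝒲`, `v ∈ V \ U 𝒲`, `Lg u v`;
`X` := the component of `v`, `X ∉ 𝒲`, `Disjoint (U 𝒲) X` (`geo_cmp_disjoint`); `geo_tour_exists` for `X` from `v` (short steps, cost `0` by `geo_lcost_eq_zero`), `Tour.mono`, `Tour.insert`; `U (insert X 𝒲) = U 𝒲 ∪ X`.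
Start: `𝒲 = {component of a}`. -/
theorem geo_ftour_exists {S Lg : I → I → Prop} (hS : ∀ u v, S u v → S v u) (hL : ∀ u v, Lg u v → Lg v u) {V : Finset I} (h : CN Lg V)
    {a : I} (ha : a ∈ V) :
    ∃ l, Tour (fun u v => S u v ∨ Lg u v) V a l ∧ lcost S l + 2 ≤ 2 * (cmp S V).card := by
  have key : ∀ n : ℕ, ∀ W : Finset (Finset I), W ⊆ cmp S V → a ∈ W.biUnion id → (cmp S V \ W).card = n →
      (∃ l, Tour (fun u v => S u v ∨ Lg u v) (W.biUnion id) a l ∧ lcost S l + 2 ≤ 2 * W.card) →
      ∃ l, Tour (fun u v => S u v ∨ Lg u v) V a l ∧ lcost S l + 2 ≤ 2 * (cmp S V).card := by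
    intro n
    induction n with
    | zero =>
      intro W hW _ hn hl
      have e : W = cmp S V :=
        Finset.Subset.antisymm hW (Finset.sdiff_eq_empty_iff_subset.1 (Finset.card_eq_zero.1 hn))
      have eU : (cmp S V).biUnion id = V := by
        ext x; constructor
        · intro hx
          obtain ⟨X, hX, hxX⟩ := Finset.mem_biUnion.1 hx
          exact (geo_cmp_sub hX).1 hxX
        · intro hx
          obtain ⟨X, hX, hxX⟩ := geo_cmp_exists hS hx
          exact Finset.mem_biUnion.2 ⟨X, hX, hxX⟩
      rw [e, eU] at hl; exact hl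
    | succ n ih =>
      rintro W hW haW hn ⟨l, hl, hcost⟩
      have hsub : W.biUnion id ⊆ V := fun x hx => by
        obtain ⟨X, hX, hxX⟩ := Finset.mem_biUnion.1 hx
        exact (geo_cmp_sub (hW hX)).1 hxX
      obtain ⟨X0, hX0⟩ : (cmp S V \ W).Nonempty := Finset.card_pos.1 (by omega)
      have hne : W.biUnion id ≠ V := by
        intro e
        obtain ⟨hX0C, hX0W⟩ := Finset.mem_sdiff.1 hX0
        obtain ⟨x, hx⟩ := (geo_cmp_sub hX0C).2.1
        have hxU : x ∈ W.biUnion id := by rw [e]; exact (geo_cmp_sub hX0C).1 hx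
        obtain ⟨Y, hY, hxY⟩ := Finset.mem_biUnion.1 hxU
        have hXY : X0 = Y := by
          by_contra hne
          exact Finset.disjoint_left.1 (geo_cmp_disjoint hX0C (hW hY) hne) hx hxY
        exact hX0W (hXY ▸ hY)
      obtain ⟨u, hu, v, hv, hvW, huv⟩ := geo_exists_edge h hsub ⟨a, haW⟩ hne
      obtain ⟨X, hX, hvX⟩ := geo_cmp_exists hS hv
      have hXW : X ∉ W := fun hc => hvW (Finset.mem_biUnion.2 ⟨X, hc, hvX⟩)
      have hdisj : Disjoint (W.biUnion id) X := by
        rw [Finset.disjoint_left]; intro x hx hxX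
        obtain ⟨Y, hY, hxY⟩ := Finset.mem_biUnion.1 hx
        have hYX : Y ≠ X := fun e => hXW (e ▸ hY)
        exact Finset.disjoint_left.1 (geo_cmp_disjoint (hW hY) hX hYX) hxY hxX
      obtain ⟨l', hl'⟩ := geo_tour_exists hS (geo_cmp_sub hX).2 hvX
      have hc0 : lcost S l' = 0 := geo_lcost_eq_zero hl'.chain
      obtain ⟨l'', hl'', hcost''⟩ := Tour.insert S hl
        (hl'.mono (E' := fun u v => S u v ∨ Lg u v) fun u v h => Or.inl h) hdisj hu (Or.inr huv)
        (Or.inr (hL u v huv))
      refine ih (insert X W) (Finset.insert_subset hX hW) ?_ ?_ ⟨l'', ?_, ?_⟩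
      · rw [Finset.biUnion_insert]; exact Finset.mem_union_right _ haW
      · have e : cmp S V \ insert X W = (cmp S V \ W).erase X := by
          ext x
          simp only [Finset.mem_sdiff, Finset.mem_insert, Finset.mem_erase]
          tauto
        rw [e, Finset.card_erase_of_mem (Finset.mem_sdiff.2 ⟨hX, hXW⟩), hn]; rfl
      · rw [Finset.biUnion_insert, id, Finset.union_comm]; exact hl''
      · rw [Finset.card_insert_of_notMem hXW]; omega
  obtain ⟨X, hX, haX⟩ := geo_cmp_exists hS ha
  obtain ⟨l, hl⟩ := geo_tour_exists hS (geo_cmp_sub hX).2 haX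
  refine key _ {X} (Finset.singleton_subset_iff.2 hX) (by simpa using haX) rfl ⟨l, ?_, ?_⟩
  · rw [Finset.singleton_biUnion]
    exact hl.mono fun u v h => Or.inl h
  · rw [geo_lcost_eq_zero hl.chain]; simp

/-! ## 4. Counting walks -/

/-- all walks from `a` with `N` steps, each in `bS` (short) or `bL` (long), at most `k` of the second kind. -/
def wk (bS bL : I → Finset I) : ℕ → ℕ → I → Finset (List I)
  | 0, _, a => {[a]}
  | N + 1, 0, a => (bS a).biUnion fun c => (wk bS bL N 0 c).image fun l => a :: l
  | N + 1, k + 1, a => ((bS a).biUnion fun c => (wk bS bL N (k + 1) c).image fun l => a :: l) ∪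
      ((bL a).biUnion fun c => (wk bS bL N k c).image fun l => a :: l)

/-- induction on `N` generalising `k`, `a`: `Finset.card_biUnion_le`, `Finset.card_image_le`, `Finset.card_union_le`;
`Ds (Ds+1)^N Dl^(k+1) + Dl (Ds+1)^N Dl^k = (Ds+1)^(N+1) Dl^(k+1)`. -/
theorem geo_wk_card {bS bL : I → Finset I} {Ds Dl : ℕ} (hS : ∀ a, (bS a).card ≤ Ds) (hL : ∀ a, (bL a).card ≤ Dl)
    (hDl : 1 ≤ Dl) (N k : ℕ) (a : I) : (wk bS bL N k a).card ≤ (Ds + 1) ^ N * Dl ^ k := by
  have hb : ∀ (b : I → Finset I) (D : ℕ), (∀ a, (b a).card ≤ D) → ∀ (F : I → Finset (List I)) (M : ℕ),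
      (∀ c, (F c).card ≤ M) → ∀ a, ((b a).biUnion fun c => (F c).image fun l => a :: l).card ≤ D * M := by
    intro b D hD F M hF a
    calc ((b a).biUnion fun c => (F c).image fun l => a :: l).card
        ≤ ∑ c ∈ b a, ((F c).image fun l => a :: l).card := Finset.card_biUnion_le
      _ ≤ ∑ c ∈ b a, M := Finset.sum_le_sum fun c _ => le_trans Finset.card_image_le (hF c)
      _ = (b a).card * M := by rw [Finset.sum_const, smul_eq_mul]
      _ ≤ D * M := Nat.mul_le_mul_right _ (hD a)
  induction N generalizing k a with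
  | zero =>
    rw [wk]
    simp only [Finset.card_singleton, pow_zero, one_mul]
    exact Nat.one_le_pow _ _ hDl
  | succ N ih =>
    cases k with
    | zero =>
      rw [wk]
      refine le_trans (hb bS Ds hS _ _ (fun c => ih 0 c) a) ?_
      rw [pow_succ]
      nlinarith [Nat.zero_le ((Ds + 1) ^ N * Dl ^ 0)]
    | succ k =>
      rw [wk]
      refine le_trans (Finset.card_union_le _ _) ?_
      refine le_trans (Nat.add_le_add (hb bS Ds hS _ _ (fun c => ih (k + 1) c) a)
        (hb bL Dl hL _ _ (fun c => ih k c) a)) (le_of_eq ?_)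
      ring

/-- induction on `N` generalising `k`, `a`, `l`: `l = a :: c :: t`; if `S a c` the step is short (same `k`); otherwise it is long, `lcost` drops by one, so `k = k' + 1`. -/
theorem geo_mem_wk {S Lg : I → I → Prop} {bS bL : I → Finset I} (hS : ∀ u v, S u v → v ∈ bS u)
    (hL : ∀ u v, Lg u v → v ∈ bL u) (N k : ℕ) (a : I) (l : List I) (hh : l.head? = some a) (hlen : l.length = N + 1)
    (hc : l.IsChain fun u v => S u v ∨ Lg u v) (hk : lcost S l ≤ k) : l ∈ wk bS bL N k a := by
  induction N generalizing k a l with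
  | zero =>
    rw [wk]
    match l, hh, hlen with
    | [x], hh, _ =>
      simp only [List.head?_cons, Option.some.injEq] at hh
      rw [hh]; exact Finset.mem_singleton_self _
  | succ N ih =>
    match l, hh, hlen, hc, hk with
    | x :: c :: t, hh, hlen, hc, hk =>
      simp only [List.head?_cons, Option.some.injEq] at hh
      subst hh
      have hc' := List.isChain_cons_cons.1 hc
      rw [geo_lcost_cons_cons] at hk
      have hlen' : (c :: t).length = N + 1 := by simpa using hlen
      by_cases hs : S x c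
      · rw [if_pos hs, zero_add] at hk
        have hm := ih k c (c :: t) rfl hlen' hc'.2 hk
        have hm' : x :: c :: t ∈ (bS x).biUnion fun c => (wk bS bL N k c).image fun l => x :: l :=
          Finset.mem_biUnion.2 ⟨c, hS x c hs, Finset.mem_image.2 ⟨c :: t, hm, rfl⟩⟩
        cases k with
        | zero => rw [wk]; exact hm'
        | succ k => rw [wk]; exact Finset.mem_union_left _ hm'
      · rw [if_neg hs] at hk
        have hLg : Lg x c := hc'.1.resolve_left hs
        cases k with
        | zero => omega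
        | succ k =>
          have hm := ih k c (c :: t) rfl hlen' hc'.2 (by omega)
          rw [wk]
          exact Finset.mem_union_right _
            (Finset.mem_biUnion.2 ⟨c, hL x c hLg, Finset.mem_image.2 ⟨c :: t, hm, rfl⟩⟩)

/-! ## 5. The two counts -/

/-- **lattice animals.**  PLAN: `n = 0`: the filter is empty.  Otherwise the filter is contained in `(wk bS bS (2 n - 2) 0 a).image List.toFinset` (`geo_tour_exists`, `geo_mem_wk` with `Lg := S`, `geo_lcost_eq_zero`, `Tour.cover`);
`Finset.card_le_card`, `Finset.card_image_le`, `geo_wk_card`. -/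
theorem geo_count_animals [Fintype I] {S : I → I → Prop} (hs : ∀ u v, S u v → S v u) {bS : I → Finset I} {D : ℕ}
    (hS : ∀ u v, S u v → v ∈ bS u) (hD : ∀ a, (bS a).card ≤ D) (a : I) (n : ℕ) :
    (Finset.univ.filter fun X : Finset I => CN S X ∧ a ∈ X ∧ X.card = n).card ≤ (D + 1) ^ (2 * n) := by
  have hsub : (Finset.univ.filter fun X : Finset I => CN S X ∧ a ∈ X ∧ X.card = n) ⊆
      (wk bS bS (2 * n - 2) 0 a).image List.toFinset := by
    intro X hX
    obtain ⟨h1, h2, h3⟩ := (Finset.mem_filter.1 hX).2
    obtain ⟨l, hl⟩ := geo_tour_exists hs h1 h2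
    have hpos : 1 ≤ n := by rw [← h3]; exact Finset.card_pos.2 ⟨a, h2⟩
    exact Finset.mem_image.2 ⟨l, geo_mem_wk (S := S) (Lg := S) hS hS _ 0 a l hl.head
      (by have := hl.len; omega) (hl.chain.imp fun u v h => Or.inl h) (by rw [geo_lcost_eq_zero hl.chain]), hl.cover⟩
  calc _ ≤ _ := Finset.card_le_card hsub
    _ ≤ (wk bS bS (2 * n - 2) 0 a).card := Finset.card_image_le
    _ ≤ (D + 1) ^ (2 * n - 2) * (D + 1) ^ 0 :=
        geo_wk_card (Ds := D) (Dl := D + 1) hD (fun a => (hD a).trans (Nat.le_succ _)) (by omega) _ 0 a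
    _ = (D + 1) ^ (2 * n - 2) := by simp
    _ ≤ (D + 1) ^ (2 * n) := Nat.pow_le_pow_right (by omega) (by omega)

/-- **families.**  PLAN: the filter is contained in `(roots.biUnion fun a => wk bS bL (2 n - 2) (2 j - 2) a).image List.toFinset` (`geo_ftour_exists`); `n ≥ 1`, `j ≥ 1` on the filter. -/
theorem geo_count_families [Fintype I] {S Lg : I → I → Prop} (hS : ∀ u v, S u v → S v u) (hL : ∀ u v, Lg u v → Lg v u)
    {bS bL : I → Finset I} {Ds Dl : ℕ} (hbS : ∀ u v, S u v → v ∈ bS u) (hbL : ∀ u v, Lg u v → v ∈ bL u)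
    (hDs : ∀ a, (bS a).card ≤ Ds) (hDl : ∀ a, (bL a).card ≤ Dl) (hDl1 : 1 ≤ Dl) (roots : Finset I) (n j : ℕ) :
    (Finset.univ.filter fun V : Finset I => V.card = n ∧ (cmp S V).card = j ∧ CN Lg V ∧ ∃ a ∈ roots, a ∈ V).card
      ≤ roots.card * ((Ds + 1) ^ (2 * n) * Dl ^ (2 * j - 2)) := by
  have hsub : (Finset.univ.filter fun V : Finset I => V.card = n ∧ (cmp S V).card = j ∧ CN Lg V ∧
      ∃ a ∈ roots, a ∈ V) ⊆ (roots.biUnion fun a => wk bS bL (2 * n - 2) (2 * j - 2) a).image List.toFinset := by
    intro V hV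
    obtain ⟨h1, h2, h3, a, har, haV⟩ := (Finset.mem_filter.1 hV).2
    obtain ⟨l, hl, hcost⟩ := geo_ftour_exists hS hL h3 haV
    have hpos : 1 ≤ n := by rw [← h1]; exact Finset.card_pos.2 ⟨a, haV⟩
    exact Finset.mem_image.2 ⟨l, Finset.mem_biUnion.2 ⟨a, har, geo_mem_wk hbS hbL _ _ a l hl.head
      (by have := hl.len; omega) hl.chain (by omega)⟩, hl.cover⟩
  calc _ ≤ _ := Finset.card_le_card hsub
    _ ≤ (roots.biUnion fun a => wk bS bL (2 * n - 2) (2 * j - 2) a).card := Finset.card_image_le
    _ ≤ ∑ a ∈ roots, (wk bS bL (2 * n - 2) (2 * j - 2) a).card := Finset.card_biUnion_le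
    _ ≤ ∑ a ∈ roots, ((Ds + 1) ^ (2 * n) * Dl ^ (2 * j - 2)) := Finset.sum_le_sum fun a _ =>
        le_trans (geo_wk_card hDs hDl hDl1 _ _ a)
          (Nat.mul_le_mul_right _ (Nat.pow_le_pow_right (by omega) (by omega)))
    _ = roots.card * ((Ds + 1) ^ (2 * n) * Dl ^ (2 * j - 2)) := by rw [Finset.sum_const, smul_eq_mul]

/-! ## 6. Chunks -/

section dist

variable (d : I → I → ℕ) (hd0 : ∀ a, d a a = 0) (htri : ∀ a b c, d a c ≤ d a b + d b c)

/-- along a chain with steps `≤ R` the distance from the head grows by at most `R` per step.  Induction on `t`. -/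
theorem geo_chain_dist (hd0 : ∀ a, d a a = 0) (htri : ∀ a b c, d a c ≤ d a b + d b c) {R : ℕ} (a : I) (t : List I)
    (hc : (a :: t).IsChain fun u v => d u v ≤ R) : ∀ x ∈ a :: t, d a x ≤ t.length * R := by
  induction t generalizing a with
  | nil =>
    intro x hx
    simp only [List.mem_singleton] at hx
    subst hx; simp [hd0]
  | cons b t ih =>
    intro x hx
    have hc' := List.isChain_cons_cons.1 hc
    rcases List.mem_cons.1 hx with rfl | hx
    · rw [hd0]; exact Nat.zero_le _
    · have := ih b hc'.2 x hx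
      calc d a x ≤ d a b + d b x := htri a b x
        _ ≤ R + t.length * R := Nat.add_le_add hc'.1 this
        _ = (b :: t).length * R := by rw [List.length_cons]; ring

/-- **(W5)**  strong induction on `l.length`: `[]`: no centre.  `l = a :: t`: centre `a` for `l.take k` (`geo_chain_dist`, `IsChain.take`), recursion on `l.drop k` (`IsChain.drop`; `1 ≤ k`),
`(n - k) / k + 1 + 1 = n / k + 1` if `k ≤ n`. -/
theorem geo_cover_chunks (hd0 : ∀ a, d a a = 0) (htri : ∀ a b c, d a c ≤ d a b + d b c) {R k : ℕ} (hk : 1 ≤ k)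
    (l : List I) (hc : l.IsChain fun u v => d u v ≤ R) :
    ∃ cs : Finset I, cs.card ≤ l.length / k + 1 ∧ ∀ x ∈ l, ∃ c ∈ cs, d c x ≤ (k - 1) * R := by
  have key : ∀ n : ℕ, ∀ l : List I, l.length = n → (l.IsChain fun u v => d u v ≤ R) →
      ∃ cs : Finset I, cs.card ≤ (n + k - 1) / k ∧ ∀ x ∈ l, ∃ c ∈ cs, d c x ≤ (k - 1) * R := by
    intro n
    induction n using Nat.strong_induction_on with
    | _ n ih =>
      intro l hn hc
      cases l with
      | nil => exact ⟨∅, by simp, by simp⟩
      | cons a t =>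
        have hn1 : 1 ≤ n := by rw [← hn]; simp
        have hlen : ((a :: t).drop k).length = n - k := by rw [List.length_drop, hn]
        obtain ⟨cs, hcs, hcov⟩ := ih (n - k) (by omega) ((a :: t).drop k) hlen (hc.drop k)
        refine ⟨insert a cs, ?_, ?_⟩
        · refine le_trans (Finset.card_insert_le _ _) ?_
          rcases le_or_gt k n with hkn | hkn
          · have e1 : n - k + k - 1 = n - 1 := by omega
            have e2 : n + k - 1 = n - 1 + k := by omega
            rw [e1] at hcs
            rw [e2, Nat.add_div_right _ (by omega)]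
            omega
          · have e1 : n - k + k - 1 = k - 1 := by omega
            rw [e1, Nat.div_eq_of_lt (by omega)] at hcs
            have : 1 ≤ (n + k - 1) / k := Nat.div_pos (by omega) (by omega)
            omega
        · intro x hx
          rw [← List.take_append_drop k (a :: t), List.mem_append] at hx
          rcases hx with hx | hx
          · refine ⟨a, Finset.mem_insert_self _ _, ?_⟩
            obtain ⟨k', rfl⟩ : ∃ k', k = k' + 1 := ⟨k - 1, by omega⟩
            have hct := hc.take (k' + 1)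
            rw [List.take_succ_cons] at hx hct
            refine le_trans (geo_chain_dist d hd0 htri a _ hct x hx) (Nat.mul_le_mul_right _ ?_)
            rw [List.length_take]; omega
          · obtain ⟨c, hc1, hc2⟩ := hcov x hx
            exact ⟨c, Finset.mem_insert_of_mem hc1, hc2⟩
  obtain ⟨cs, hcs, hcov⟩ := key _ l rfl hc
  refine ⟨cs, le_trans hcs ?_, hcov⟩
  have e : l.length + k - 1 = l.length + (k - 1) := by omega
  rw [e]
  calc (l.length + (k - 1)) / k ≤ (l.length + k) / k := Nat.div_le_div_right (by omega)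
    _ = l.length / k + 1 := Nat.add_div_right _ (by omega)

/-- two points of a connected set of `n` points are at distance `≤ 2 n R`  (tour from `a`, `geo_chain_dist`). -/
theorem geo_tour_dist (hd0 : ∀ a, d a a = 0) (hsym : ∀ a b, d a b = d b a) (htri : ∀ a b c, d a c ≤ d a b + d b c)
    {R : ℕ} {V : Finset I} (h : CN (fun u v => d u v ≤ R) V) {a b : I} (ha : a ∈ V) (hb : b ∈ V) :
    d a b ≤ 2 * V.card * R := by
  obtain ⟨l, hl⟩ := geo_tour_exists (E := fun u v => d u v ≤ R) (fun u v h => by rwa [hsym]) h ha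
  have hbl : b ∈ l := by rw [← List.mem_toFinset, hl.cover]; exact hb
  have hh := hl.head
  have hlen := hl.len
  have hch := hl.chain
  cases l with
  | nil => simp at hh
  | cons x t =>
    simp only [List.head?_cons, Option.some.injEq] at hh
    subst hh
    refine le_trans (geo_chain_dist d hd0 htri x t hch b hbl) (Nat.mul_le_mul_right _ ?_)
    simp only [List.length_cons] at hlen
    omega

end dist

/-- Stores the on-demand equation lemmas of the definitions above in THIS module (rule 6 hygiene). -/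
theorem geo_walk_eqns_cite : True := by
  have := @CN.eq_1; have := @cmp.eq_1
  have := @lcost.eq_1; have := @lcost.eq_2; have := @lcost.eq_def
  have := @wk.eq_1; have := @wk.eq_2; have := @wk.eq_3; have := @wk.eq_def
  trivial

end Claimed.Agent.R285.Geo
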