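import Claimed.Agent.R285.Geo.Main
import Claimed.Agent.R285.Est.Basic

/-!
# ROW 285, package BP-PK-GEO, file 4: the two additional contracts of `Read/B4.lean` v6 (`geometry_fibre`, `geometry_four`).      helper241.   Prefix `geo_`.
EXPORTS: `geo_fibre`, `geo_four` (`D1 = 7`: then the coarse grid has `n' ≥ 4` intervals per axis).   EVERYTHING IS PROVED.
-/

set_option autoImplicit false
set_option linter.unusedSectionVars false
set_option linter.unusedVariables false

namespace Claimed.Agent.R285.Geo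

open Claimed.Agent.R285.RG

variable {G : Geom}

/-- the number of fine blocks in a coarse block -/
theorem geo_fibre {D0 ℓ : ℕ} (P : Pair G D0 ℓ) (y : P.g'.I) : (Est.fib P y).card ≤ (2 ^ (ℓ + 1)) ^ 2 := by
  have h := geo_fib_card P y
  rw [show (2 : ℕ) ^ (ℓ + 1) = 2 * 2 ^ ℓ by rw [pow_succ, mul_comm]]
  refine le_trans (le_of_eq ?_) h
  unfold Est.fib
  congr 1

/-- the number of intervals of a grid: `M ≤ n * (2 m)`. -/
theorem geo_sites_le (g : Grid G) (hg : g.Ok) : G.M ≤ g.n * (2 * g.m) := by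
  have h1 := Finset.sum_card_fiberwise_eq_card_filter (Finset.univ : Finset (Fin G.M)) Finset.univ g.blk1
  have h2 : (Finset.univ.filter fun i : Fin G.M => g.blk1 i ∈ (Finset.univ : Finset (Fin g.n))).card = G.M := by
    simp
  rw [h2] at h1
  rw [← h1]
  have := Finset.sum_le_card_nsmul (Finset.univ : Finset (Fin g.n))
    (fun c => (Finset.univ.filter fun i => g.blk1 i = c).card) (2 * g.m) (fun c _ => (hg.size c).2.le)
  simpa using this

/-- one axis: pairwise adjacent indices. -/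
theorem geo_two (g : Grid G) (hn : 4 ≤ g.n) (A : Finset (Fin g.n)) (hA : ∀ a ∈ A, ∀ b ∈ A, g.idist1 a b ≤ 1) :
    A.card ≤ 2 := by
  by_contra hc
  obtain ⟨a, b, c, ha, hb, hc', hab, hac, hbc⟩ := Finset.two_lt_card_iff.1 (not_le.1 hc)
  have h1 := hA a ha b hb
  have h2 := hA a ha c hc'
  have h3 := hA b hb c hc'
  have ha' := a.2
  have hb' := b.2
  have hc'' := c.2
  have n1 : (a : ℕ) ≠ b := fun h => hab (Fin.ext h)
  have n2 : (a : ℕ) ≠ c := fun h => hac (Fin.ext h)
  have n3 : (b : ℕ) ≠ c := fun h => hbc (Fin.ext h)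
  rcases geo_bc_cases G with h | h
  · rw [geo_idist1_per g h] at h1 h2 h3; omega
  · rw [geo_idist1_free g h] at h1 h2 h3; omega

/-- sets of index diameter `≤ 1` have at most four blocks. -/
theorem geo_four_grid (g : Grid G) (hn : 4 ≤ g.n) (Y : Finset g.I) (hY : g.idiam Y ≤ 1) : Y.card ≤ 4 := by
  have hd : ∀ a ∈ Y, ∀ b ∈ Y, g.idist a b ≤ 1 := fun a ha b hb =>
    le_trans (le_trans (Finset.le_sup (f := fun b => g.idist a b) hb)
      (Finset.le_sup (f := fun a => Y.sup fun b => g.idist a b) ha)) hY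
  have hsub : Y ⊆ (Y.image Prod.fst) ×ˢ (Y.image Prod.snd) := fun y hy =>
    Finset.mem_product.2 ⟨Finset.mem_image_of_mem _ hy, Finset.mem_image_of_mem _ hy⟩
  have h1 : (Y.image Prod.fst).card ≤ 2 := by
    refine geo_two g hn _ fun a ha b hb => ?_
    obtain ⟨x, hx, rfl⟩ := Finset.mem_image.1 ha
    obtain ⟨y, hy, rfl⟩ := Finset.mem_image.1 hb
    exact le_trans (le_max_left _ _) (hd x hx y hy)
  have h2 : (Y.image Prod.snd).card ≤ 2 := by
    refine geo_two g hn _ fun a ha b hb => ?_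
    obtain ⟨x, hx, rfl⟩ := Finset.mem_image.1 ha
    obtain ⟨y, hy, rfl⟩ := Finset.mem_image.1 hb
    exact le_trans (le_max_right _ _) (hd x hx y hy)
  calc Y.card ≤ _ := Finset.card_le_card hsub
    _ = (Y.image Prod.fst).card * (Y.image Prod.snd).card := Finset.card_product _ _
    _ ≤ 2 * 2 := Nat.mul_le_mul h1 h2

/-- clearance gives many coarse intervals: `D0 < 2 n'`. -/
theorem geo_clear {D0 ℓ : ℕ} (P : Pair G D0 ℓ) : D0 < 2 * P.g'.n := by
  have h1 := geo_sites_le P.g' P.ok'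
  have h2 := P.clear
  have h3 : D0 * P.g'.m < 2 * P.g'.n * P.g'.m := by
    calc D0 * P.g'.m < G.M := h2
      _ ≤ P.g'.n * (2 * P.g'.m) := h1
      _ = 2 * P.g'.n * P.g'.m := by ring
  exact lt_of_mul_lt_mul_right h3 (Nat.zero_le _)

/-- sets of index diameter `≤ 1` have at most four blocks (needs `n' ≥ 4` on the torus) -/
theorem geo_four : ∃ D1 : ℕ, ∀ D0 ≥ D1, ∀ (G : Geom) (ℓ : ℕ) (P : Pair G D0 ℓ) (Y : Finset P.g'.I),
    P.g'.idiam Y ≤ 1 → Y.card ≤ 4 := by
  refine ⟨7, fun D0 hD G ℓ P Y hY => geo_four_grid P.g' ?_ Y hY⟩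
  have := geo_clear P
  omega

end Claimed.Agent.R285.Geo
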