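import Claimed.Agent.R285.Geo.Walk
import Claimed.Agent.R285.Geo.Grid

/-!
# ROW 285, package BP-PK-GEO ([B] Lemma 4.3 `rg:geometry`, Corollary 4.7), file 3: THE FOUR EXPORTS.      Architect: helper241.   Prefix `geo_`.

EXPORTS (verbatim the four contracts of `R285/Read/B4.lean` s2):  `geo_closure`, `geo_animals`, `geo_families`, `geo_placements`.
EVERYTHING IS PROVED (0 sorry in Geo/Walk, Geo/Grid, Geo/Main).
Constants: `C0 = 36`, `n0 = 36`, `ℓ0 = 144 R` (`2^ℓ ≥ 144 R`), `D1 = 0` everywhere.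
-/

set_option autoImplicit false
set_option linter.unusedSectionVars false
set_option linter.unusedVariables false

namespace Claimed.Agent.R285.Geo

open Claimed.Agent.R285.RG

variable {G : Geom}

/-! ## 0. Dictionary -/

theorem geo_conn_iff (g : Grid G) (R : ℕ) (X : Finset g.I) : g.Conn R X ↔ CN (fun u v => g.idist u v ≤ R) X :=
  Iff.rfl

theorem geo_comps_eq (g : Grid G) (R : ℕ) (V : Finset g.I) : g.comps R V = cmp (fun u v => g.idist u v ≤ R) V := by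
  ext X
  simp only [Grid.comps, cmp, Finset.mem_filter]
  exact Iff.rfl

/-! ## 1. Closure -/

section pair

variable {D0 ℓ : ℕ} (P : Pair G D0 ℓ)

theorem geo_cl_card_le (X : Finset P.g.I) : (P.N.cl X).card ≤ X.card := Finset.card_image_le

theorem geo_cl_conn {R r : ℕ} (hr : 1 ≤ r) (hR : 2 * R ≤ 2 ^ ℓ) {X : Finset P.g.I} (hX : P.g.Conn R X) :
    P.g'.Conn r (P.N.cl X) :=
  CN.image (E' := fun u v => P.g'.idist u v ≤ r) hX P.N.up
    (fun u v huv => (geo_up_adj P (a := u) (b := v) (by omega)).trans hr)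

/-- tour, chunks of `k` consecutive points, each chunk meets at most `9` coarse blocks. -/
theorem geo_cl_chunks {R k : ℕ} (hk : 1 ≤ k) (h : 2 * ((k - 1) * R) ≤ 2 ^ ℓ) {X : Finset P.g.I} (hX : P.g.Conn R X) :
    (P.N.cl X).card ≤ 9 * ((2 * X.card - 1) / k + 1) := by
  obtain ⟨a, ha⟩ := hX.1
  obtain ⟨l, hl⟩ := geo_tour_exists (E := fun u v => P.g.idist u v ≤ R)
    (fun u v h => by rwa [geo_idist_comm]) hX ha
  obtain ⟨cs, hcs, hcov⟩ := geo_cover_chunks P.g.idist (geo_idist_self _) (geo_idist_triangle _) hk l hl.chain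
  have hlen : l.length = 2 * X.card - 1 := by have := hl.len; omega
  have hsub : P.N.cl X ⊆ cs.biUnion fun c => Finset.univ.filter fun b => P.g'.idist (P.N.up c) b ≤ 1 := by
    intro y hy
    obtain ⟨x, hx, rfl⟩ := Finset.mem_image.1 hy
    have hxl : x ∈ l := by rw [← List.mem_toFinset, hl.cover]; exact hx
    obtain ⟨c, hc, hd⟩ := hcov x hxl
    exact Finset.mem_biUnion.2 ⟨c, hc, Finset.mem_filter.2 ⟨Finset.mem_univ _, geo_up_adj P (by omega)⟩⟩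
  calc (P.N.cl X).card ≤ _ := Finset.card_le_card hsub
    _ ≤ ∑ c ∈ cs, (Finset.univ.filter fun b => P.g'.idist (P.N.up c) b ≤ 1).card := Finset.card_biUnion_le
    _ ≤ ∑ c ∈ cs, 9 := Finset.sum_le_sum fun c _ => (geo_ball_card _ _ 1)
    _ = 9 * cs.card := by simp [mul_comm]
    _ ≤ 9 * ((2 * X.card - 1) / k + 1) := by rw [hlen] at hcs; omega

/-- **the first bound of Lemma 4.3.**  PLAN: `R = 0`: `geo_cl_chunks` with `k := 2 * X.card` (`(2 n - 1) / (2 n) = 0`), so `|cl X| ≤ 9`.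
`R ≥ 1`: `k := 2^ℓ / (2 R) + 1`; `2 ((k - 1) R) = (2^ℓ / (2 R)) * (2 R) ≤ 2^ℓ` (`Nat.div_mul_le_self`); `2^ℓ < k * (2 R)` (`Nat.lt_div_mul_add` / `Nat.div_add_mod`);
`((2 n - 1) / k : ℕ) ≤ 2 n / k ≤ 4 n R / 2^ℓ` in `ℝ` (`Nat.cast_div_le`, `div_le_div_iff`), so `|cl X| ≤ 9 (1 + 4 R n / 2^ℓ) ≤ 36 (1 + R n / 2^ℓ)`. -/
theorem geo_cl_real {R : ℕ} {X : Finset P.g.I} (hX : P.g.Conn R X) :
    ((P.N.cl X).card : ℝ) ≤ 36 * (1 + R * X.card / 2 ^ ℓ) := by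
  have hn : 1 ≤ X.card := Finset.card_pos.2 hX.1
  rcases Nat.eq_zero_or_pos R with rfl | hR
  · have h := geo_cl_chunks P (k := 2 * X.card) (by omega) (by simp) hX
    rw [Nat.div_eq_of_lt (by omega)] at h
    have h' : ((P.N.cl X).card : ℝ) ≤ 9 := by exact_mod_cast h
    simp only [Nat.cast_zero, zero_mul, zero_div, add_zero, mul_one]
    linarith
  · have h0 := Nat.div_mul_le_self (2 ^ ℓ) (2 * R)
    have h1 : 2 * ((2 ^ ℓ / (2 * R) + 1 - 1) * R) ≤ 2 ^ ℓ := by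
      rw [Nat.add_sub_cancel]
      calc 2 * ((2 ^ ℓ / (2 * R)) * R) = 2 ^ ℓ / (2 * R) * (2 * R) := by ring
        _ ≤ 2 ^ ℓ := h0
    have h := geo_cl_chunks P (k := 2 ^ ℓ / (2 * R) + 1) (Nat.le_add_left 1 _) h1 hX
    have h2 : 2 ^ ℓ < (2 ^ ℓ / (2 * R) + 1) * (2 * R) := by
      have := Nat.div_add_mod (2 ^ ℓ) (2 * R)
      have hm := Nat.mod_lt (2 ^ ℓ) (show 0 < 2 * R by omega)
      calc 2 ^ ℓ = 2 * R * (2 ^ ℓ / (2 * R)) + 2 ^ ℓ % (2 * R) := this.symm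
        _ < 2 * R * (2 ^ ℓ / (2 * R)) + 2 * R := by omega
        _ = (2 ^ ℓ / (2 * R) + 1) * (2 * R) := by ring
    generalize 2 ^ ℓ / (2 * R) + 1 = k at h h2
    have h3 : (2 * X.card - 1) / k * k ≤ 2 * X.card := le_trans (Nat.div_mul_le_self _ _) (by omega)
    generalize (2 * X.card - 1) / k = q at h h3
    have h4 : q * 2 ^ ℓ ≤ 4 * (R * X.card) := by
      calc q * 2 ^ ℓ ≤ q * (k * (2 * R)) := Nat.mul_le_mul_left _ h2.le
        _ = (q * k) * (2 * R) := by ring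
        _ ≤ (2 * X.card) * (2 * R) := Nat.mul_le_mul_right _ h3
        _ = 4 * (R * X.card) := by ring
    have hLpos : (0 : ℝ) < 2 ^ ℓ := by positivity
    have h5 : (q : ℝ) ≤ 4 * (R * X.card) / 2 ^ ℓ := by
      rw [le_div_iff₀ hLpos]; exact_mod_cast h4
    have h6 : ((P.N.cl X).card : ℝ) ≤ 9 * (q + 1) := by exact_mod_cast h
    have h7 : (4 : ℝ) * (R * X.card) / 2 ^ ℓ = 4 * (R * X.card / 2 ^ ℓ) := by ring
    have h8 : (0 : ℝ) ≤ R * X.card / 2 ^ ℓ := by positivity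
    rw [h7] at h5
    linarith

end pair

/-- **Lemma 4.3, closure.** -/
theorem geo_closure (r R : ℕ) (hr : 2 ≤ r) : ∃ (C0 : ℝ) (n0 ℓ0 D1 : ℕ), ∀ D0 ≥ D1, ∀ (G : Geom) (ℓ : ℕ), ℓ0 ≤ ℓ →
    ∀ P : Pair G D0 ℓ, ∀ X : Finset P.g.I, P.g.Conn R X →
      ((P.N.cl X).card : ℝ) ≤ C0 * (1 + R * X.card / 2 ^ ℓ) ∧ (P.N.cl X).card ≤ X.card ∧
      P.g'.Conn r (P.N.cl X) ∧ (n0 < X.card → 2 * (P.N.cl X).card ≤ X.card) ∧
      (X.card ≤ n0 → P.g'.idiam (P.N.cl X) ≤ 1) := by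
  refine ⟨36, 36, 144 * R, 0, fun D0 _ G ℓ hℓ P X hX => ?_⟩
  have hL : 144 * R ≤ 2 ^ ℓ := (Nat.lt_two_pow_self).le.trans (Nat.pow_le_pow_right (by norm_num) hℓ)
  refine ⟨geo_cl_real P hX, geo_cl_card_le P X, geo_cl_conn P (by omega) (by omega) hX, fun hn => ?_, fun hn => ?_⟩
  · have := geo_cl_chunks P (k := 72) (by norm_num) (by omega) hX
    omega
  · unfold Grid.idiam
    refine Finset.sup_le fun a ha => Finset.sup_le fun b hb => ?_
    obtain ⟨x, hx, rfl⟩ := Finset.mem_image.1 ha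
    obtain ⟨y, hy, rfl⟩ := Finset.mem_image.1 hb
    have h1 := geo_tour_dist P.g.idist (geo_idist_self _) (geo_idist_comm _) (geo_idist_triangle _) hX hx hy
    apply geo_up_adj
    have h2 : 2 * X.card * R ≤ 2 * 36 * R := Nat.mul_le_mul_right _ (Nat.mul_le_mul_left _ hn)
    omega

/-! ## 2. Lattice animals -/

open Classical in
/-- **Lemma 4.3, lattice animals.** -/
theorem geo_animals (R : ℕ) : ∃ C : ℕ, ∀ (G : Geom) (g : Grid G), g.Ok → ∀ (b : g.I) (n : ℕ),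
    (Finset.univ.filter fun X : Finset g.I => g.Conn R X ∧ b ∈ X ∧ X.card = n).card ≤ C ^ n := by
  refine ⟨(((2 * R + 1) ^ 2 + 1) ^ 2), fun G g _ b n => ?_⟩
  have h := geo_count_animals (S := fun u v => g.idist u v ≤ R) (fun u v h => by rwa [geo_idist_comm])
    (bS := fun u => Finset.univ.filter fun v => g.idist u v ≤ R) (D := (2 * R + 1) ^ 2)
    (fun u v h => Finset.mem_filter.2 ⟨Finset.mem_univ _, h⟩) (fun a => geo_ball_card g a R) b n
  rw [← pow_mul]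
  refine le_trans (Finset.card_le_card fun X hX => ?_) h
  have hX' := (Finset.mem_filter.1 hX).2
  exact Finset.mem_filter.2 ⟨Finset.mem_univ _, hX'⟩

/-! ## 3. Families -/

/-- arithmetic of the family count.  PLAN: `j = j' + 1`; `(2 L)^2 = 4 L^2 ≤ C L^2`, `(4 L (r + 1) + 1)^2 ≤ (5 (r + 1) L)^2 = 25 (r + 1)^2 L^2 ≤ C L^2` (`1 ≤ L`), `A^(2 n) = (A^2)^n ≤ C^n`,
`(C L^2) * (C L^2)^(2 j') ≤ (C L^2)^(2 j' + 2)` because `1 ≤ C L^2`. -/
theorem geo_fam_arith (r A L n j : ℕ) (hL : 1 ≤ L) (hj : 1 ≤ j) :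
    (2 * L) ^ 2 * (A ^ (2 * n) * ((2 * (2 * L * (r + 1)) + 1) ^ 2) ^ (2 * j - 2))
      ≤ (25 * (r + 1) ^ 2 + A ^ 2) ^ n * ((25 * (r + 1) ^ 2 + A ^ 2) * L ^ 2) ^ (2 * j) := by
  obtain ⟨j', rfl⟩ : ∃ j', j = j' + 1 := ⟨j - 1, by omega⟩
  set C := 25 * (r + 1) ^ 2 + A ^ 2 with hC
  have h1 : (2 * L) ^ 2 ≤ C * L ^ 2 := by
    have : 4 ≤ C := by
      have : 1 ≤ (r + 1) ^ 2 := Nat.one_le_pow _ _ (by omega)
      omega
    calc (2 * L) ^ 2 = 4 * L ^ 2 := by ring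
      _ ≤ C * L ^ 2 := Nat.mul_le_mul_right _ this
  have h2 : (2 * (2 * L * (r + 1)) + 1) ^ 2 ≤ C * L ^ 2 := by
    have h3 : 2 * (2 * L * (r + 1)) + 1 ≤ 5 * (r + 1) * L := by nlinarith
    calc (2 * (2 * L * (r + 1)) + 1) ^ 2 ≤ (5 * (r + 1) * L) ^ 2 := Nat.pow_le_pow_left h3 2
      _ = 25 * (r + 1) ^ 2 * L ^ 2 := by ring
      _ ≤ C * L ^ 2 := Nat.mul_le_mul_right _ (by omega)
  have h4 : A ^ (2 * n) ≤ C ^ n := by
    rw [pow_mul]; exact Nat.pow_le_pow_left (by omega) n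
  have h5 : 1 ≤ C * L ^ 2 := le_trans (Nat.one_le_pow _ _ (by omega)) h1
  have e : 2 * (j' + 1) - 2 = 2 * j' := by omega
  rw [e]
  calc (2 * L) ^ 2 * (A ^ (2 * n) * ((2 * (2 * L * (r + 1)) + 1) ^ 2) ^ (2 * j'))
      ≤ (C * L ^ 2) * (C ^ n * (C * L ^ 2) ^ (2 * j')) :=
        Nat.mul_le_mul h1 (Nat.mul_le_mul h4 (Nat.pow_le_pow_left h2 _))
    _ = C ^ n * (C * L ^ 2) ^ (2 * j' + 1) := by ring
    _ ≤ C ^ n * (C * L ^ 2) ^ (2 * (j' + 1)) :=
        Nat.mul_le_mul_left _ (Nat.pow_le_pow_right h5 (by omega))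

open Classical in
/-- **Lemma 4.3, families** (rg:family-count). -/
theorem geo_families (r R : ℕ) : ∃ (C ℓ0 D1 : ℕ), ∀ D0 ≥ D1, ∀ (G : Geom) (ℓ : ℕ), ℓ0 ≤ ℓ → ∀ P : Pair G D0 ℓ,
    ∀ (b : P.g'.I) (n j : ℕ),
      (Finset.univ.filter fun V : Finset P.g.I => V.card = n ∧ (P.g.comps R V).card = j ∧
        P.g'.Conn r (P.N.cl V) ∧ b ∈ P.N.cl V).card ≤ C ^ n * (C * (2 ^ ℓ) ^ 2) ^ (2 * j) := by
  refine ⟨25 * (r + 1) ^ 2 + ((2 * R + 1) ^ 2 + 1) ^ 2, 0, 0, fun D0 _ G ℓ _ P b n j => ?_⟩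
  have hsymS : ∀ u v : P.g.I, P.g.idist u v ≤ R → P.g.idist v u ≤ R := fun u v h => by rwa [geo_idist_comm]
  rcases Nat.eq_zero_or_pos j with rfl | hj
  · -- no family without components
    refine le_trans (le_of_eq ?_) (Nat.zero_le _)
    rw [Finset.card_eq_zero, Finset.filter_eq_empty_iff]
    rintro V - ⟨-, h0, -, hb⟩
    obtain ⟨x, hx, -⟩ := Finset.mem_image.1 hb
    obtain ⟨X, hX, -⟩ := geo_cmp_exists hsymS hx
    rw [geo_comps_eq, Finset.card_eq_zero] at h0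
    rw [h0] at hX
    exact absurd hX (Finset.notMem_empty _)
  · have h := geo_count_families (S := fun u v => P.g.idist u v ≤ R)
      (Lg := fun u v => P.g'.idist (P.N.up u) (P.N.up v) ≤ r) hsymS (fun u v h => by rwa [geo_idist_comm])
      (bS := fun u => Finset.univ.filter fun v => P.g.idist u v ≤ R)
      (bL := fun u => Finset.univ.filter fun v => P.g.idist u v ≤ 2 * 2 ^ ℓ * (r + 1))
      (Ds := (2 * R + 1) ^ 2) (Dl := (2 * (2 * 2 ^ ℓ * (r + 1)) + 1) ^ 2)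
      (fun u v h => Finset.mem_filter.2 ⟨Finset.mem_univ _, h⟩)
      (fun u v h => Finset.mem_filter.2 ⟨Finset.mem_univ _,
        (geo_up_dist' P u v).le.trans (Nat.mul_le_mul_left _ (Nat.succ_le_succ h))⟩)
      (fun a => geo_ball_card _ a R) (fun a => geo_ball_card _ a _) (Nat.one_le_pow _ _ (by omega))
      (Finset.univ.filter fun a : P.g.I => P.N.up a = b) n j
    refine le_trans (le_trans (Finset.card_le_card fun V hV => ?_) h) ?_
    · obtain ⟨h1, h2, h3, h4⟩ := (Finset.mem_filter.1 hV).2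
      obtain ⟨x, hx, hxb⟩ := Finset.mem_image.1 h4
      refine Finset.mem_filter.2 ⟨Finset.mem_univ _, h1, ?_, ?_, x, Finset.mem_filter.2 ⟨Finset.mem_univ _, hxb⟩, hx⟩
      · rw [← geo_comps_eq]; exact h2
      · exact CN.of_image (E' := fun u v => P.g'.idist u v ≤ r) P.N.up
          (fun c => by rw [geo_idist_self]; exact Nat.zero_le _) h3
    · refine le_trans (Nat.mul_le_mul_right _ (geo_fib_card P b)) ?_
      exact geo_fam_arith r ((2 * R + 1) ^ 2 + 1) (2 ^ ℓ) n j Nat.one_le_two_pow hj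

/-! ## 4. Placements -/

open Classical in
/-- **Corollary 4.7**, bulk placements: small polymers with a given closure. -/
theorem geo_placements (R n0 : ℕ) : ∃ (C ℓ0 D1 : ℕ), ∀ D0 ≥ D1, ∀ (G : Geom) (ℓ : ℕ), ℓ0 ≤ ℓ → ∀ P : Pair G D0 ℓ,
    ∀ Y : Finset P.g'.I,
      (Finset.univ.filter fun X : Finset P.g.I => P.g.Conn R X ∧ X.card ≤ n0 ∧ P.N.cl X = Y).card
        ≤ C * (2 ^ ℓ) ^ 2 := by
  obtain ⟨Ca, hCa⟩ := geo_animals R
  refine ⟨4 * ∑ n ∈ Finset.range (n0 + 1), Ca ^ n, 0, 0, fun D0 _ G ℓ _ P Y => ?_⟩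
  rcases Y.eq_empty_or_nonempty with rfl | ⟨y, hy⟩
  · refine le_trans (le_of_eq ?_) (Nat.zero_le _)
    rw [Finset.card_eq_zero, Finset.filter_eq_empty_iff]
    rintro X - ⟨h1, -, h3⟩
    obtain ⟨x, hx⟩ := h1.1
    have : P.N.up x ∈ P.N.cl X := Finset.mem_image_of_mem _ hx
    rw [h3] at this
    exact absurd this (Finset.notMem_empty _)
  · have hsub : (Finset.univ.filter fun X : Finset P.g.I => P.g.Conn R X ∧ X.card ≤ n0 ∧ P.N.cl X = Y) ⊆
        (Finset.univ.filter fun a : P.g.I => P.N.up a = y).biUnion fun a =>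
          (Finset.range (n0 + 1)).biUnion fun n =>
            Finset.univ.filter fun X : Finset P.g.I => P.g.Conn R X ∧ a ∈ X ∧ X.card = n := by
      intro X hX
      obtain ⟨h1, h2, h3⟩ := (Finset.mem_filter.1 hX).2
      rw [← h3] at hy
      obtain ⟨x, hx, hxy⟩ := Finset.mem_image.1 hy
      exact Finset.mem_biUnion.2 ⟨x, Finset.mem_filter.2 ⟨Finset.mem_univ _, hxy⟩,
        Finset.mem_biUnion.2 ⟨X.card, Finset.mem_range.2 (by omega),
          Finset.mem_filter.2 ⟨Finset.mem_univ _, h1, hx, rfl⟩⟩⟩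
    calc _ ≤ _ := Finset.card_le_card hsub
      _ ≤ ∑ a ∈ Finset.univ.filter (fun a : P.g.I => P.N.up a = y), ∑ n ∈ Finset.range (n0 + 1), Ca ^ n :=
          le_trans Finset.card_biUnion_le (Finset.sum_le_sum fun a _ =>
            le_trans Finset.card_biUnion_le (Finset.sum_le_sum fun n _ => hCa G P.g P.ok a n))
      _ = (Finset.univ.filter fun a : P.g.I => P.N.up a = y).card * ∑ n ∈ Finset.range (n0 + 1), Ca ^ n := by
          rw [Finset.sum_const, smul_eq_mul]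
      _ ≤ (2 * 2 ^ ℓ) ^ 2 * ∑ n ∈ Finset.range (n0 + 1), Ca ^ n := Nat.mul_le_mul_right _ (geo_fib_card P y)
      _ = 4 * (∑ n ∈ Finset.range (n0 + 1), Ca ^ n) * (2 ^ ℓ) ^ 2 := by ring

end Claimed.Agent.R285.Geo
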